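import Mathlib.Analysis.Matrix.PosDef
import Mathlib.Analysis.Matrix.Order
import Mathlib.Analysis.CStarAlgebra.Matrix

/-!
# Linear algebra of positive matrices
-/

open scoped ComplexOrder Matrix

noncomputable section

namespace Vale.Agent.P272.K.C2

variable {ι κ : Type*} [Fintype ι] [DecidableEq ι] [Fintype κ]

open scoped MatrixOrder in
theorem exists_factor {A : Matrix ι ι ℂ} (hA : A.PosSemidef) : ∃ B : Matrix ι ι ℂ, A = Bᴴ * B := by
  obtain ⟨B, hB⟩ := CStarAlgebra.nonneg_iff_eq_star_mul_self.mp hA.nonneg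
  exact ⟨B, hB⟩

theorem trace_mul_nonneg {A B : Matrix ι ι ℂ} (hA : A.PosSemidef) (hB : B.PosSemidef) :
    0 ≤ (A * B).trace := by
  obtain ⟨C, rfl⟩ := exists_factor hA
  rw [Matrix.mul_assoc, Matrix.trace_mul_comm]
  exact (hB.mul_mul_conjTranspose_same C).trace_nonneg

theorem trace_mul_pos [Nonempty ι] {A B : Matrix ι ι ℂ} (hA : A.PosDef) (hB : B.PosDef) :
    0 < (A * B).trace := by
  obtain ⟨C, hC⟩ := exists_factor hA.posSemidef
  have hdet : C.det ≠ 0 := by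
    intro h
    have := hA.det_pos
    rw [hC, Matrix.det_mul, h, mul_zero] at this
    exact lt_irrefl _ this
  rw [hC, Matrix.mul_assoc, Matrix.trace_mul_comm]
  have hC' : IsUnit C := (Matrix.isUnit_iff_isUnit_det _).2 (isUnit_iff_ne_zero.2 hdet)
  have : (C * B * Cᴴ).PosDef := by
    have := (Matrix.IsUnit.posDef_star_right_conjugate_iff (x := B) hC').2 hB
    simpa [Matrix.star_eq_conjTranspose] using this
  exact this.trace_pos

/-- the Hilbert–Schmidt positivity used for the quadratic first-order term -/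
theorem sum_trace_nonneg {R : Matrix κ κ ℂ} {P Q : Matrix ι ι ℂ} (hR : R.PosSemidef)
    (hP : P.PosSemidef) (hQ : Q.PosSemidef) (C : κ → Matrix ι ι ℂ) :
    0 ≤ ∑ l, ∑ k, R l k * (C k * Q * (C l)ᴴ * P).trace := by
  obtain ⟨A, rfl⟩ := exists_factor hP
  obtain ⟨B, rfl⟩ := exists_factor hQ
  set Y : κ → Matrix ι ι ℂ := fun k => A * C k * Bᴴ with hY
  have e1 : ∀ k l, (C k * (Bᴴ * B) * (C l)ᴴ * (Aᴴ * A)).trace =
      ∑ a, ∑ b, Y k a b * (starRingEnd ℂ) (Y l a b) := by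
    intro k l
    have : (C k * (Bᴴ * B) * (C l)ᴴ * (Aᴴ * A)).trace = (Y k * (Y l)ᴴ).trace := by
      rw [← Matrix.mul_assoc, Matrix.trace_mul_comm, hY]
      simp only [Matrix.conjTranspose_mul, Matrix.conjTranspose_conjTranspose, Matrix.mul_assoc]
    rw [this, Matrix.trace]
    refine Finset.sum_congr rfl fun a _ => ?_
    rw [Matrix.diag_apply, Matrix.mul_apply]
    rfl
  have e2 : ∑ l, ∑ k, R l k * (C k * (Bᴴ * B) * (C l)ᴴ * (Aᴴ * A)).trace =
      ∑ a, ∑ b, (star (fun l => Y l a b) ⬝ᵥ (R *ᵥ fun k => Y k a b)) := by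
    simp only [e1, dotProduct, Matrix.mulVec, Pi.star_apply, Finset.mul_sum]
    calc ∑ l, ∑ k, ∑ a, ∑ b, R l k * (Y k a b * (starRingEnd ℂ) (Y l a b))
        = ∑ l, ∑ a, ∑ k, ∑ b, R l k * (Y k a b * (starRingEnd ℂ) (Y l a b)) :=
          Finset.sum_congr rfl fun l _ => Finset.sum_comm
      _ = ∑ a, ∑ l, ∑ k, ∑ b, R l k * (Y k a b * (starRingEnd ℂ) (Y l a b)) := Finset.sum_comm
      _ = ∑ a, ∑ l, ∑ b, ∑ k, R l k * (Y k a b * (starRingEnd ℂ) (Y l a b)) :=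
          Finset.sum_congr rfl fun a _ => Finset.sum_congr rfl fun l _ => Finset.sum_comm
      _ = ∑ a, ∑ b, ∑ l, ∑ k, R l k * (Y k a b * (starRingEnd ℂ) (Y l a b)) :=
          Finset.sum_congr rfl fun a _ => Finset.sum_comm
      _ = _ := by
          refine Finset.sum_congr rfl fun a _ => Finset.sum_congr rfl fun b _ =>
            Finset.sum_congr rfl fun l _ => Finset.sum_congr rfl fun k _ => ?_
          simp only [RCLike.star_def]
          ring
  rw [e2]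
  exact Finset.sum_nonneg fun a _ => Finset.sum_nonneg fun b _ => hR.dotProduct_mulVec_nonneg _

theorem norm_entry_le_trace {P : Matrix ι ι ℂ} (hP : P.PosSemidef) (i j : ι) :
    ‖P i j‖ ≤ P.trace.re := by
  obtain ⟨B, rfl⟩ := exists_factor hP
  have h1 : (Bᴴ * B).trace.re = ∑ c, ∑ a, ‖B a c‖ ^ 2 := by
    rw [Matrix.trace, Complex.re_sum]
    refine Finset.sum_congr rfl fun c _ => ?_
    rw [Matrix.diag_apply, Matrix.mul_apply, Complex.re_sum]
    refine Finset.sum_congr rfl fun a _ => ?_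
    rw [Matrix.conjTranspose_apply, RCLike.star_def, mul_comm, Complex.mul_conj,
      Complex.ofReal_re, Complex.normSq_eq_norm_sq]
  have h2 : ‖(Bᴴ * B) i j‖ ≤ ∑ a, ‖B a i‖ * ‖B a j‖ := by
    rw [Matrix.mul_apply]
    refine (norm_sum_le _ _).trans (le_of_eq ?_)
    refine Finset.sum_congr rfl fun a _ => ?_
    rw [norm_mul, Matrix.conjTranspose_apply, norm_star]
  have h3 : ∀ c : ι, ∑ a, ‖B a c‖ ^ 2 ≤ ∑ c, ∑ a, ‖B a c‖ ^ 2 := fun c =>
    Finset.single_le_sum (f := fun c => ∑ a, ‖B a c‖ ^ 2)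
      (fun c _ => Finset.sum_nonneg fun a _ => sq_nonneg _) (Finset.mem_univ c)
  have h4 : ∑ a, ‖B a i‖ * ‖B a j‖ ≤ ∑ a, (‖B a i‖ ^ 2 + ‖B a j‖ ^ 2) / 2 :=
    Finset.sum_le_sum fun a _ => by nlinarith [sq_nonneg (‖B a i‖ - ‖B a j‖)]
  have h5 : ∑ a, (‖B a i‖ ^ 2 + ‖B a j‖ ^ 2) / 2 =
      ((∑ a, ‖B a i‖ ^ 2) + ∑ a, ‖B a j‖ ^ 2) / 2 := by
    rw [← Finset.sum_add_distrib, Finset.sum_div]
  rw [h1]
  have := h3 i
  have := h3 j
  linarith

/-- `M ≤ tr M` for `M ≥ 0` -/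
theorem trace_smul_one_sub_posSemidef {M : Matrix ι ι ℂ} (hM : M.PosSemidef) :
    (M.trace • (1 : Matrix ι ι ℂ) - M).PosSemidef := by
  obtain ⟨B, rfl⟩ := exists_factor hM
  have h1 : (Bᴴ * B).trace = ((∑ c, ∑ a, ‖B a c‖ ^ 2 : ℝ) : ℂ) := by
    rw [Matrix.trace]
    push_cast
    refine Finset.sum_congr rfl fun c _ => ?_
    rw [Matrix.diag_apply, Matrix.mul_apply]
    refine Finset.sum_congr rfl fun a _ => ?_
    rw [Matrix.conjTranspose_apply, RCLike.star_def, mul_comm, Complex.mul_conj,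
      Complex.normSq_eq_norm_sq]
    push_cast; ring
  have hreal : star (Bᴴ * B).trace = (Bᴴ * B).trace := by
    rw [h1]; simp
  refine Matrix.PosSemidef.of_dotProduct_mulVec_nonneg ?_ fun x => ?_
  · rw [Matrix.IsHermitian, Matrix.conjTranspose_sub, Matrix.conjTranspose_smul,
      Matrix.conjTranspose_one, hreal, Matrix.conjTranspose_mul, Matrix.conjTranspose_conjTranspose]
  · have e : star x ⬝ᵥ ((Bᴴ * B).trace • (1 : Matrix ι ι ℂ) - Bᴴ * B) *ᵥ x =
        (((∑ c, ∑ a, ‖B a c‖ ^ 2) * ∑ i, ‖x i‖ ^ 2 - ∑ a, ‖∑ i, B a i * x i‖ ^ 2 : ℝ) : ℂ) := by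
      rw [Matrix.sub_mulVec, dotProduct_sub, Matrix.smul_mulVec, Matrix.one_mulVec,
        dotProduct_smul, h1, ← Matrix.mulVec_mulVec, Matrix.dotProduct_mulVec,
        Matrix.vecMul_conjTranspose, star_star]
      have a1 : star x ⬝ᵥ x = ((∑ i, ‖x i‖ ^ 2 : ℝ) : ℂ) := by
        rw [dotProduct]
        push_cast
        refine Finset.sum_congr rfl fun i _ => ?_
        rw [Pi.star_apply, RCLike.star_def, mul_comm, Complex.mul_conj, Complex.normSq_eq_norm_sq]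
        push_cast; ring
      have a2 : star (B *ᵥ x) ⬝ᵥ (B *ᵥ x) = ((∑ a, ‖∑ i, B a i * x i‖ ^ 2 : ℝ) : ℂ) := by
        rw [dotProduct]
        push_cast
        refine Finset.sum_congr rfl fun i _ => ?_
        rw [Pi.star_apply, RCLike.star_def, mul_comm, Complex.mul_conj, Complex.normSq_eq_norm_sq]
        simp only [Matrix.mulVec, dotProduct]
        push_cast; ring
      rw [a1, a2, smul_eq_mul]
      push_cast; ring
    rw [e]
    have h : ∑ a, ‖∑ i, B a i * x i‖ ^ 2 ≤ (∑ c, ∑ a, ‖B a c‖ ^ 2) * ∑ i, ‖x i‖ ^ 2 := by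
      rw [Finset.sum_comm, Finset.sum_mul]
      refine Finset.sum_le_sum fun a _ => ?_
      have b1 : ‖∑ i, B a i * x i‖ ≤ ∑ i, ‖B a i‖ * ‖x i‖ := by
        refine (norm_sum_le _ _).trans (le_of_eq ?_)
        exact Finset.sum_congr rfl fun i _ => norm_mul _ _
      have b2 := Finset.sum_mul_sq_le_sq_mul_sq Finset.univ (fun i => ‖B a i‖) (fun i => ‖x i‖)
      calc ‖∑ i, B a i * x i‖ ^ 2 ≤ (∑ i, ‖B a i‖ * ‖x i‖) ^ 2 := by gcongr
        _ ≤ _ := b2
    exact_mod_cast sub_nonneg.2 h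

/-- `H ≤ tr (G⁻¹ H) G` -/
theorem trace_smul_sub_posSemidef {G H : Matrix ι ι ℂ} (hG : G.PosDef) (hH : H.PosSemidef) :
    ((G⁻¹ * H).trace • G - H).PosSemidef := by
  obtain ⟨A, hA⟩ := exists_factor hG.posSemidef
  have hdet : A.det ≠ 0 := by
    intro h
    have := hG.det_pos
    rw [hA, Matrix.det_mul, h, mul_zero] at this
    exact lt_irrefl _ this
  have hAu : IsUnit A.det := isUnit_iff_ne_zero.2 hdet
  have hAu' : IsUnit Aᴴ.det := by
    rw [Matrix.det_conjTranspose]; exact hAu.star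
  have hK : (A⁻¹ᴴ * H * A⁻¹).PosSemidef := hH.conjTranspose_mul_mul_same _
  have h1 := (trace_smul_one_sub_posSemidef hK).conjTranspose_mul_mul_same A
  have h2 : (A⁻¹ᴴ * H * A⁻¹).trace = (G⁻¹ * H).trace := by
    rw [Matrix.trace_mul_comm, ← Matrix.mul_assoc, hA, Matrix.mul_inv_rev,
      Matrix.conjTranspose_nonsing_inv]
  have h3 : Aᴴ * (A⁻¹ᴴ * H * A⁻¹) * A = H := by
    have a1 : Aᴴ * A⁻¹ᴴ = 1 := by
      rw [Matrix.conjTranspose_nonsing_inv, Matrix.mul_nonsing_inv _ hAu']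
    calc Aᴴ * (A⁻¹ᴴ * H * A⁻¹) * A = (Aᴴ * A⁻¹ᴴ) * H * (A⁻¹ * A) := by
          simp only [Matrix.mul_assoc]
      _ = H := by rw [a1, Matrix.nonsing_inv_mul _ hAu, Matrix.one_mul, Matrix.mul_one]
  have h4 : Aᴴ * ((A⁻¹ᴴ * H * A⁻¹).trace • (1 : Matrix ι ι ℂ) - A⁻¹ᴴ * H * A⁻¹) * A =
      (G⁻¹ * H).trace • G - H := by
    rw [Matrix.mul_sub, Matrix.sub_mul, h3, h2, Matrix.mul_smul, Matrix.smul_mul, Matrix.mul_one,
      ← hA]
  rwa [h4] at h1

end Vale.Agent.P272.K.C2
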