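import Vale.Agent.P272.K.C2.Global

/-!
# The `C²` estimate for the complex Monge–Ampère equation: maximum principle
-/

open scoped Manifold ContDiff ComplexOrder Topology Matrix
open MeasureTheory

noncomputable section

namespace Vale.Agent.P272.K.C2

variable {n : ℕ} {X : Type*} [TopologicalSpace X] [ChartedSpace (Cm n) X]
variable {χ : Chart n X → Cm n → Matrix (Fin n) (Fin n) ℂ} {F u : X → ℝ} {s : ℝ}

/-- `tr_{g'} χ` as a function on `X` -/
def tauX (χ : Chart n X → Cm n → Matrix (Fin n) (Fin n) ℂ) (u : X → ℝ) (x : X) : ℝ :=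
  tau (addH χ u (chartAt (Cm n) x)) (χ (chartAt (Cm n) x)) (chartAt (Cm n) x x)

theorem at_chartAt (x : X) : At (chartAt (Cm n) x) x :=
  ⟨chart_mem_atlas (Cm n) x, mem_chart_source (Cm n) x⟩

theorem mc_addH (hχ : IsHermitian χ) (hu : SmoothFn (n := n) u) {e : Chart n X} {x : X}
    (h : At e x) (m : ℕ) : MC m (addH χ u e) (e x) :=
  (mc_of_smooth hχ h m).add (mc_cHess hu h m)

theorem contDiffAt_tau (hχ : IsHermitian χ) (hu : Sol χ F s u) {e : Chart n X} {x : X}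
    (h : At e x) (m : ℕ) : ContDiffAt ℝ m (tau (addH χ u e) (χ e)) (e x) :=
  Complex.reCLM.contDiff.contDiffAt.comp (e x)
    ((((mc_addH hχ hu.smooth h m).inv (posDef_det_ne_zero (hu.pos e x h))).mul
      (mc_of_smooth hχ h m)).trace)

variable [IsManifold 𝓘(ℂ, Cm n) ω X]

theorem isForm_addH (hχ : IsHermitian χ) (hu : SmoothFn (n := n) u) :
    IsForm (X := X) (addH χ u) :=
  hχ.isForm.add (isForm_cHess fun e x h => (hu e x h).of_le (by norm_cast))

theorem tauX_eq (hχ : IsHermitian χ) (hu : SmoothFn (n := n) u) {e : Chart n X} {x : X}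
    (h : At e x) : tauX χ u x = tau (addH χ u e) (χ e) (e x) := by
  have := trace_inv (isForm_addH hχ hu) hχ.isForm (at_chartAt x) h
  exact congrArg Complex.re this

theorem tauX_symm_eventually (hχ : IsHermitian χ) (hu : SmoothFn (n := n) u) {e : Chart n X}
    {x : X} (h : At e x) :
    (fun z => tauX χ u (e.symm z)) =ᶠ[𝓝 (e x)] tau (addH χ u e) (χ e) := by
  filter_upwards [h.nhds_target] with z hz
  rw [tauX_eq hχ hu (At.of_target h.1 hz), e.right_inv hz]

omit [IsManifold 𝓘(ℂ, Cm n) ω X] in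
theorem tauX_pos [NeZero n] (hχ : IsHermitian χ) (hu : Sol χ F s u) (x : X) : 0 < tauX χ u x :=
  trace_re_pos (hu.pos _ _ (at_chartAt x)) (hχ.posDef _ _ (at_chartAt x))

/-- bound for `tr_{g'} χ` -/
theorem tauX_le [CompactSpace X] [NeZero n] (hχ : IsKahler χ) (hF : SmoothFn (n := n) F)
    {A M0 : ℝ} (hA : 0 ≤ A) (hM0 : ∀ x, |u x| ≤ M0)
    (hb : ∀ x, ∃ (e : Chart n X) (M : ℝ), 0 ≤ M ∧ n ^ 4 * M ^ 3 * (1 + M) ≤ A ∧ Bd χ F M e x)
    (hs0 : 0 ≤ s) (hs1 : s ≤ 1) (hu : Sol χ F s u) (x : X) :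
    tauX χ u x ≤ (1 + (A + 1) * n) * Real.exp ((A + 1) * (2 * M0)) := by
  have hH := hχ.toIsHermitian
  set Φ : X → ℝ := fun x => Real.log (tauX χ u x) - (A + 1) * u x with hΦ
  have hΦe : ∀ (e : Chart n X) (x : X), At e x → (fun z => Φ (e.symm z)) =ᶠ[𝓝 (e x)]
      fun z => Real.log (tau (addH χ u e) (χ e) z) - (A + 1) * u (e.symm z) := by
    intro e x h
    filter_upwards [tauX_symm_eventually hH hu.smooth h] with z hz
    rw [hΦ]
    simp only [hz]
  have hlogC : ∀ (e : Chart n X) (x : X), At e x →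
      ContDiffAt ℝ 2 (fun z => Real.log (tau (addH χ u e) (χ e) z)) (e x) := fun e x h =>
    (contDiffAt_tau hH hu h 2).log
      (trace_re_pos (hu.pos e x h) (hH.posDef e x h)).ne'
  have huC : ∀ (e : Chart n X) (x : X), At e x → ContDiffAt ℝ 2 (fun z => u (e.symm z)) (e x) :=
    fun e x h => (hu.smooth e x h).of_le (by norm_cast)
  have hΦC2 : N.C2Fn (n := n) Φ := fun e x h =>
    ((hlogC e x h).sub (contDiffAt_const.mul (huC e x h))).congr_of_eventuallyEq (hΦe e x h)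
  obtain ⟨x0, -, hx0⟩ := isCompact_univ.exists_isMaxOn ⟨x, Set.mem_univ x⟩
    hΦC2.continuous.continuousOn
  have hmax : ∀ y, Φ y ≤ Φ x0 := fun y => hx0 (Set.mem_univ y)
  obtain ⟨e, M, hM, hMA, hbd⟩ := hb x0
  have hAt := hbd.at'
  have hloc : IsLocalMax (fun z => Φ (e.symm z)) (e x0) := by
    refine Filter.Eventually.of_forall fun z => ?_
    simp only [e.left_inv hAt.2]
    exact hmax _
  have h1 := N.neg_cHess_posSemidef (hΦC2 e x0 hAt) hloc
  have hGp := hu.pos e x0 hAt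
  have hHp := hH.posDef e x0 hAt
  set P := (addH χ u e (e x0))⁻¹ with hP
  have hPp : P.PosSemidef := hGp.inv.posSemidef
  have h2 := trace_mul_nonneg hPp h1
  have h3 : cHess (fun z => Φ (e.symm z)) (e x0) =
      cHess (fun z => Real.log (tau (addH χ u e) (χ e) z)) (e x0) -
        ((A + 1 : ℝ) : ℂ) • cHess (fun z => u (e.symm z)) (e x0) := by
    rw [cHess_congr (hΦe e x0 hAt), cHess_sub (hlogC e x0 hAt)
      (contDiffAt_const.mul (huC e x0 hAt)), cHess_const_mul _ (huC e x0 hAt)]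
  set t := tau (addH χ u e) (χ e) (e x0) with ht
  have htpos : 0 < t := trace_re_pos hGp hHp
  have h4 : (P * cHess (fun z => u (e.symm z)) (e x0)).trace.re = n - t := by
    have e1 : cHess (fun z => u (e.symm z)) (e x0) = addH χ u e (e x0) - χ e (e x0) := by
      rw [addH]; abel
    rw [e1, Matrix.mul_sub, Matrix.nonsing_inv_mul _ (isUnit_iff_ne_zero.2
      (posDef_det_ne_zero hGp)), Matrix.trace_sub, Matrix.trace_one, Complex.sub_re]
    simp [ht, tau, hP]
  have h5 := sol_ineq hχ hF hM hs0 hs1 hu hbd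
  rw [← ht, ← hP] at h5
  rw [h3, Matrix.mul_neg, Matrix.trace_neg, Complex.le_def] at h2
  have h6 := h2.1
  rw [Complex.neg_re, Matrix.mul_sub, Matrix.trace_sub, Complex.sub_re, Matrix.mul_smul,
    Matrix.trace_smul, smul_eq_mul, Complex.re_ofReal_mul, h4, Complex.zero_re] at h6
  have h7 : n ^ 4 * M ^ 3 * (1 + M) * t ≤ A * t := mul_le_mul_of_nonneg_right hMA htpos.le
  have h8 : t ≤ 1 + (A + 1) * n := by nlinarith
  have hx0t : tauX χ u x0 = t := tauX_eq hH hu.smooth hAt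
  -- conclusion
  have h9 := hmax x
  simp only [hΦ] at h9
  rw [hx0t] at h9
  have hn : (0 : ℝ) ≤ n := Nat.cast_nonneg n
  have hpos1 : 0 < 1 + (A + 1) * (n : ℝ) := by positivity
  have h10 : Real.log t ≤ Real.log (1 + (A + 1) * n) := Real.log_le_log htpos h8
  have h11 := abs_le.1 (hM0 x)
  have h12 := abs_le.1 (hM0 x0)
  have h13 : Real.log (tauX χ u x) ≤ Real.log (1 + (A + 1) * n) + (A + 1) * (2 * M0) := by
    nlinarith
  have h14 := Real.exp_le_exp.2 h13
  rwa [Real.exp_log (tauX_pos hH hu x), Real.exp_add, Real.exp_log hpos1] at h14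

omit [IsManifold 𝓘(ℂ, Cm n) ω X] in
theorem exists_uniform_bd [CompactSpace X] (hχ : IsKahler χ) (hF : SmoothFn (n := n) F) :
    ∃ A : ℝ, 0 ≤ A ∧ ∀ x, ∃ (e : Chart n X) (M : ℝ), 0 ≤ M ∧ n ^ 4 * M ^ 3 * (1 + M) ≤ A ∧
      Bd χ F M e x := by
  choose M hM0 hM using fun x : X => exists_bd hχ hF (at_chartAt x)
  obtain ⟨t, ht⟩ := CompactSpace.elim_nhds_subcover
    (fun x => {x' | Bd χ F (M x) (chartAt (Cm n) x) x'}) fun x => hM x
  have hnn : ∀ x : X, 0 ≤ (n : ℝ) ^ 4 * M x ^ 3 * (1 + M x) := fun x => by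
    have := hM0 x
    positivity
  refine ⟨∑ x ∈ t, (n : ℝ) ^ 4 * M x ^ 3 * (1 + M x), Finset.sum_nonneg fun x _ => hnn x,
    fun x => ?_⟩
  have hx : x ∈ (⊤ : Set X) := trivial
  rw [← ht] at hx
  obtain ⟨y, hy, hxy⟩ := Set.mem_iUnion₂.1 hx
  exact ⟨chartAt (Cm n) y, M y, hM0 y,
    Finset.single_le_sum (f := fun x => (n : ℝ) ^ 4 * M x ^ 3 * (1 + M x)) (fun x _ => hnn x) hy,
    hxy⟩

/-- **`C²` estimate.** -/
theorem c2_estimate [CompactSpace X] (hχ : IsKahler χ) (hF : SmoothFn (n := n) F) (M0 : ℝ) :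
    ∃ C : ℝ, 0 < C ∧ ∀ s : ℝ, 0 ≤ s → s ≤ 1 → ∀ u : X → ℝ, SmoothFn (n := n) u →
      (∀ x, |u x| ≤ M0) → (∀ e x, At e x → (addH χ u e (e x)).PosDef) →
      (∀ e x, At e x → Real.log (addH χ u e (e x)).det.re - Real.log (χ e (e x)).det.re =
        u x + s * F x) →
      ∀ e x, At e x → ((C : ℂ) • addH χ u e (e x) - χ e (e x)).PosSemidef ∧
        ((C : ℂ) • χ e (e x) - addH χ u e (e x)).PosSemidef := by
  rcases Nat.eq_zero_or_pos n with hn | hn
  · subst hn
    refine ⟨1, one_pos, fun s _ _ u _ _ _ _ e x _ => ⟨?_, ?_⟩⟩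
    · rw [Subsingleton.elim ((((1 : ℝ) : ℂ) • addH χ u e (e x) - χ e (e x))) 0]
      exact Matrix.PosSemidef.zero
    · rw [Subsingleton.elim ((((1 : ℝ) : ℂ) • χ e (e x) - addH χ u e (e x))) 0]
      exact Matrix.PosSemidef.zero
  have : NeZero n := ⟨hn.ne'⟩
  obtain ⟨A, hA, hb⟩ := exists_uniform_bd hχ hF
  have hH := hχ.toIsHermitian
  have hFc : N.C2Fn (n := n) F := hF.c2Fn
  obtain ⟨MF, hMF⟩ := isCompact_univ.exists_bound_of_continuousOn hFc.continuous.continuousOn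
  have hMF' : ∀ x, |F x| ≤ MF := fun x => hMF x (Set.mem_univ x)
  set C1 : ℝ := (1 + (A + 1) * n) * Real.exp ((A + 1) * (2 * M0)) with hC1
  have hC1pos : 0 < C1 := by positivity
  set D : ℝ := Real.exp (M0 + MF) with hD
  set C2 : ℝ := n * (C1 ^ (n - 1) * D) with hC2
  have hC2nn : 0 ≤ C2 := by positivity
  refine ⟨C1 + C2, by linarith, fun s hs0 hs1 u hus hM0 hpos heq e x hAt => ?_⟩
  have hu : Sol χ F s u := ⟨hus, hpos, heq⟩
  have hGp := hpos e x hAt
  have hHp := hH.posDef e x hAt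
  have ht : tauX χ u x ≤ C1 := tauX_le hχ hF hA hM0 hb hs0 hs1 hu x
  have htx : tauX χ u x = ((addH χ u e (e x))⁻¹ * χ e (e x)).trace.re :=
    tauX_eq hH hus hAt
  have k1 : ∀ (K : Matrix (Fin n) (Fin n) ℂ) (L : Matrix (Fin n) (Fin n) ℂ) (a b : ℝ),
      K.PosDef → a ≤ b → ((a : ℂ) • K - L).PosSemidef → ((b : ℂ) • K - L).PosSemidef := by
    intro K L a b hK hab h
    have h2 : (((b - a : ℝ) : ℂ) • K).PosSemidef :=
      hK.posSemidef.smul (by exact_mod_cast sub_nonneg.2 hab)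
    have h3 := h2.add h
    have e1 : ((b - a : ℝ) : ℂ) • K + ((a : ℂ) • K - L) = (b : ℂ) • K - L := by
      push_cast
      rw [sub_smul]
      abel
    rwa [e1] at h3
  have hS1 : (((tauX χ u x : ℝ) : ℂ) • addH χ u e (e x) - χ e (e x)).PosSemidef := by
    rw [htx, trace_re_eq hGp hHp]
    exact trace_smul_sub_posSemidef hGp hHp.posSemidef
  have hS1' := k1 _ _ _ _ hGp ht hS1
  refine ⟨k1 _ _ _ _ hGp (by linarith) hS1', ?_⟩
  -- the reverse bound
  have hdet : (addH χ u e (e x)).det.re ≤ D * (χ e (e x)).det.re := by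
    have h1 := heq e x hAt
    have h2 := abs_le.1 (hM0 x)
    have h3 := abs_le.1 (hMF' x)
    have h4 : s * F x ≤ MF := by
      have : |s * F x| ≤ MF := by
        rw [abs_mul, abs_of_nonneg hs0]
        calc s * |F x| ≤ 1 * |F x| := mul_le_mul_of_nonneg_right hs1 (abs_nonneg _)
          _ ≤ MF := by rw [one_mul]; exact hMF' x
      exact (abs_le.1 this).2
    have h5 : Real.log (addH χ u e (e x)).det.re ≤ M0 + MF + Real.log (χ e (e x)).det.re := by
      linarith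
    have h6 := Real.exp_le_exp.2 h5
    rwa [Real.exp_log (det_re_pos hGp), Real.exp_add, Real.exp_log (det_re_pos hHp)] at h6
  have h7 := trace_inv_mul_le hGp hHp hC1pos hS1' hdet
  rw [Fintype.card_fin] at h7
  have hS2 : ((((χ e (e x))⁻¹ * addH χ u e (e x)).trace.re : ℂ) • χ e (e x) -
      addH χ u e (e x)).PosSemidef := by
    rw [trace_re_eq hHp hGp]
    exact trace_smul_sub_posSemidef hHp hGp.posSemidef
  exact k1 _ _ _ _ hHp (by linarith) hS2

end Vale.Agent.P272.K.C2
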