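import Vale.Agent.P272.K.Stmt
import Mathlib.Analysis.Calculus.ContDiff.Operations
import Mathlib.Analysis.Calculus.FDeriv.Symmetric
import Mathlib.Analysis.Calculus.FDeriv.Mul
import Mathlib.Analysis.SpecialFunctions.Log.Deriv

/-!
# Wirtinger calculus for `dz`, `dzb`, `cHess`
-/

open scoped Manifold ContDiff ComplexOrder Topology
open MeasureTheory

noncomputable section

namespace Vale.Agent.P272.K.C2

variable {n : ℕ}

/-- A complex combination of two directional derivatives. -/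
def DD (a b : ℂ) (v w : Cm n) (f : Cm n → ℂ) (z : Cm n) : ℂ :=
  a * fderiv ℝ f z v + b * fderiv ℝ f z w

theorem dz_eq_DD (j : Fin n) (f : Cm n → ℂ) (z : Cm n) :
    dz j f z = DD (1 / 2) (-Complex.I / 2) (Pi.single j 1) (Pi.single j Complex.I) f z := by
  simp only [dz, DD]; ring

theorem dzb_eq_DD (j : Fin n) (f : Cm n → ℂ) (z : Cm n) :
    dzb j f z = DD (1 / 2) (Complex.I / 2) (Pi.single j 1) (Pi.single j Complex.I) f z := by
  simp only [dzb, DD]; ring

theorem dz_eq_DD' (j : Fin n) (f : Cm n → ℂ) :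
    dz j f = DD (1 / 2) (-Complex.I / 2) (Pi.single j 1) (Pi.single j Complex.I) f :=
  funext fun z => dz_eq_DD j f z

theorem dzb_eq_DD' (j : Fin n) (f : Cm n → ℂ) :
    dzb j f = DD (1 / 2) (Complex.I / 2) (Pi.single j 1) (Pi.single j Complex.I) f :=
  funext fun z => dzb_eq_DD j f z

section DDlemmas

variable (a b a' b' : ℂ) (v w v' w' : Cm n) {f g : Cm n → ℂ} {z : Cm n}

theorem DD_congr (h : f =ᶠ[𝓝 z] g) : DD a b v w f z = DD a b v w g z := by
  simp only [DD, h.fderiv_eq]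

theorem DD_add (hf : DifferentiableAt ℝ f z) (hg : DifferentiableAt ℝ g z) :
    DD a b v w (fun y => f y + g y) z = DD a b v w f z + DD a b v w g z := by
  simp only [DD, fderiv_fun_add hf hg, add_apply]; ring

theorem DD_sub (hf : DifferentiableAt ℝ f z) (hg : DifferentiableAt ℝ g z) :
    DD a b v w (fun y => f y - g y) z = DD a b v w f z - DD a b v w g z := by
  simp only [DD, fderiv_fun_sub hf hg, sub_apply]; ring

theorem DD_neg : DD a b v w (fun y => -f y) z = -DD a b v w f z := by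
  simp only [DD, fderiv_fun_neg, neg_apply]; ring

theorem DD_const (c : ℂ) : DD a b v w (fun _ => c) z = 0 := by
  simp [DD]

theorem DD_mul (hf : DifferentiableAt ℝ f z) (hg : DifferentiableAt ℝ g z) :
    DD a b v w (fun y => f y * g y) z = DD a b v w f z * g z + f z * DD a b v w g z := by
  simp only [DD, fderiv_fun_mul hf hg, add_apply,
    smul_apply, smul_eq_mul]
  ring

theorem DD_const_mul (c : ℂ) (hf : DifferentiableAt ℝ f z) :
    DD a b v w (fun y => c * f y) z = c * DD a b v w f z := by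
  rw [DD_mul a b v w (differentiableAt_const c) hf, DD_const]; ring

theorem DD_mul_const (c : ℂ) (hf : DifferentiableAt ℝ f z) :
    DD a b v w (fun y => f y * c) z = DD a b v w f z * c := by
  rw [DD_mul a b v w hf (differentiableAt_const c), DD_const]; ring

theorem DD_sum {ι : Type*} (s : Finset ι) {F : ι → Cm n → ℂ}
    (hF : ∀ i ∈ s, DifferentiableAt ℝ (F i) z) :
    DD a b v w (fun y => ∑ i ∈ s, F i y) z = ∑ i ∈ s, DD a b v w (F i) z := by
  simp only [DD, fderiv_fun_sum hF, sum_apply, Finset.mul_sum,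
    Finset.sum_add_distrib]

theorem DD_conj (hf : DifferentiableAt ℝ f z) :
    DD a b v w (fun y => (starRingEnd ℂ) (f y)) z =
      (starRingEnd ℂ) (DD ((starRingEnd ℂ) a) ((starRingEnd ℂ) b) v w f z) := by
  have h : HasFDerivAt (fun y => (starRingEnd ℂ) (f y))
      ((Complex.conjCLE : ℂ →L[ℝ] ℂ).comp (fderiv ℝ f z)) z :=
    (Complex.conjCLE : ℂ →L[ℝ] ℂ).hasFDerivAt.comp z hf.hasFDerivAt
  simp only [DD, h.fderiv]
  simp

theorem DD_comp_real {ψ : ℝ → ℝ} {ψ' : ℝ} {u : Cm n → ℝ} (hψ : HasDerivAt ψ ψ' (u z))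
    (hu : DifferentiableAt ℝ u z) :
    DD a b v w (fun y => ((ψ (u y) : ℝ) : ℂ)) z = (ψ' : ℂ) * DD a b v w (fun y => (u y : ℂ)) z := by
  have h1 : HasFDerivAt (fun y => ((ψ (u y) : ℝ) : ℂ))
      (Complex.ofRealCLM.comp (ψ' • fderiv ℝ u z)) z :=
    Complex.ofRealCLM.hasFDerivAt.comp z (hψ.comp_hasFDerivAt z hu.hasFDerivAt)
  have h2 : HasFDerivAt (fun y => ((u y : ℝ) : ℂ))
      (Complex.ofRealCLM.comp (fderiv ℝ u z)) z :=
    Complex.ofRealCLM.hasFDerivAt.comp z hu.hasFDerivAt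
  simp only [DD, h1.fderiv, h2.fderiv, ContinuousLinearMap.comp_apply,
    smul_apply, Complex.ofRealCLM_apply, smul_eq_mul, Complex.ofReal_mul]
  ring

theorem DD_contDiffAt {m k : WithTop ℕ∞} (hf : ContDiffAt ℝ k f z) (hmk : m + 1 ≤ k) :
    ContDiffAt ℝ m (DD a b v w f) z := by
  have h : ContDiffAt ℝ m (fderiv ℝ f) z := hf.fderiv_right hmk
  exact (contDiffAt_const.mul (h.clm_apply contDiffAt_const)).add
    (contDiffAt_const.mul (h.clm_apply contDiffAt_const))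

theorem DD_eventuallyEq (h : f =ᶠ[𝓝 z] g) : DD a b v w f =ᶠ[𝓝 z] DD a b v w g := by
  filter_upwards [h.eventuallyEq_nhds] with y hy using DD_congr a b v w hy

theorem DD_comm (hf : ContDiffAt ℝ 2 f z) :
    DD a b v w (DD a' b' v' w' f) z = DD a' b' v' w' (DD a b v w f) z := by
  have h1 : DifferentiableAt ℝ (fderiv ℝ f) z :=
    (hf.fderiv_right (m := 1) (by norm_num)).differentiableAt (by norm_num)
  have hs : IsSymmSndFDerivAt ℝ f z := hf.isSymmSndFDerivAt (by simp)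
  have key : ∀ v₁ v₂ : Cm n, fderiv ℝ (fun y => fderiv ℝ f y v₁) z v₂ =
      fderiv ℝ (fderiv ℝ f) z v₂ v₁ := by
    intro v₁ v₂
    rw [fderiv_clm_apply h1 (differentiableAt_const v₁)]
    simp
  have hd : ∀ v₁ : Cm n, DifferentiableAt ℝ (fun y => fderiv ℝ f y v₁) z := fun v₁ =>
    h1.clm_apply (differentiableAt_const v₁)
  have e : ∀ (c₁ c₂ : ℂ) (v₁ v₂ u : Cm n),
      fderiv ℝ (DD c₁ c₂ v₁ v₂ f) z u =
        c₁ * fderiv ℝ (fderiv ℝ f) z u v₁ + c₂ * fderiv ℝ (fderiv ℝ f) z u v₂ := by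
    intro c₁ c₂ v₁ v₂ u
    have : DD c₁ c₂ v₁ v₂ f = fun y => c₁ * fderiv ℝ f y v₁ + c₂ * fderiv ℝ f y v₂ := rfl
    rw [this, fderiv_fun_add ((hd _).const_mul _) ((hd _).const_mul _),
      fderiv_const_mul (hd _), fderiv_const_mul (hd _)]
    simp [key]
  rw [DD, DD, e, e, e, e, hs.eq v v', hs.eq v w', hs.eq w v', hs.eq w w']
  ring

end DDlemmas

section Basic

variable {f g : Cm n → ℂ} {z : Cm n} (j k : Fin n)

theorem dz_congr (h : f =ᶠ[𝓝 z] g) : dz j f z = dz j g z := by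
  simp only [dz_eq_DD]; exact DD_congr _ _ _ _ h

theorem dzb_congr (h : f =ᶠ[𝓝 z] g) : dzb j f z = dzb j g z := by
  simp only [dzb_eq_DD]; exact DD_congr _ _ _ _ h

theorem dz_eventuallyEq (h : f =ᶠ[𝓝 z] g) : dz j f =ᶠ[𝓝 z] dz j g := by
  filter_upwards [h.eventuallyEq_nhds] with y hy using dz_congr j hy

theorem dzb_eventuallyEq (h : f =ᶠ[𝓝 z] g) : dzb j f =ᶠ[𝓝 z] dzb j g := by
  filter_upwards [h.eventuallyEq_nhds] with y hy using dzb_congr j hy

theorem dz_add (hf : DifferentiableAt ℝ f z) (hg : DifferentiableAt ℝ g z) :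
    dz j (fun y => f y + g y) z = dz j f z + dz j g z := by
  simp only [dz_eq_DD]; exact DD_add _ _ _ _ hf hg

theorem dzb_add (hf : DifferentiableAt ℝ f z) (hg : DifferentiableAt ℝ g z) :
    dzb j (fun y => f y + g y) z = dzb j f z + dzb j g z := by
  simp only [dzb_eq_DD]; exact DD_add _ _ _ _ hf hg

theorem dz_sub (hf : DifferentiableAt ℝ f z) (hg : DifferentiableAt ℝ g z) :
    dz j (fun y => f y - g y) z = dz j f z - dz j g z := by
  simp only [dz_eq_DD]; exact DD_sub _ _ _ _ hf hg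

theorem dzb_sub (hf : DifferentiableAt ℝ f z) (hg : DifferentiableAt ℝ g z) :
    dzb j (fun y => f y - g y) z = dzb j f z - dzb j g z := by
  simp only [dzb_eq_DD]; exact DD_sub _ _ _ _ hf hg

theorem dz_neg : dz j (fun y => -f y) z = -dz j f z := by
  simp only [dz_eq_DD]; exact DD_neg _ _ _ _

theorem dzb_neg : dzb j (fun y => -f y) z = -dzb j f z := by
  simp only [dzb_eq_DD]; exact DD_neg _ _ _ _

theorem dz_const (c : ℂ) : dz j (fun _ : Cm n => c) z = 0 := by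
  simp only [dz_eq_DD]; exact DD_const _ _ _ _ _

theorem dzb_const (c : ℂ) : dzb j (fun _ : Cm n => c) z = 0 := by
  simp only [dzb_eq_DD]; exact DD_const _ _ _ _ _

theorem dz_mul (hf : DifferentiableAt ℝ f z) (hg : DifferentiableAt ℝ g z) :
    dz j (fun y => f y * g y) z = dz j f z * g z + f z * dz j g z := by
  simp only [dz_eq_DD]; exact DD_mul _ _ _ _ hf hg

theorem dzb_mul (hf : DifferentiableAt ℝ f z) (hg : DifferentiableAt ℝ g z) :
    dzb j (fun y => f y * g y) z = dzb j f z * g z + f z * dzb j g z := by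
  simp only [dzb_eq_DD]; exact DD_mul _ _ _ _ hf hg

theorem dz_const_mul (c : ℂ) (hf : DifferentiableAt ℝ f z) :
    dz j (fun y => c * f y) z = c * dz j f z := by
  simp only [dz_eq_DD]; exact DD_const_mul _ _ _ _ c hf

theorem dzb_const_mul (c : ℂ) (hf : DifferentiableAt ℝ f z) :
    dzb j (fun y => c * f y) z = c * dzb j f z := by
  simp only [dzb_eq_DD]; exact DD_const_mul _ _ _ _ c hf

theorem dz_mul_const (c : ℂ) (hf : DifferentiableAt ℝ f z) :
    dz j (fun y => f y * c) z = dz j f z * c := by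
  simp only [dz_eq_DD]; exact DD_mul_const _ _ _ _ c hf

theorem dzb_mul_const (c : ℂ) (hf : DifferentiableAt ℝ f z) :
    dzb j (fun y => f y * c) z = dzb j f z * c := by
  simp only [dzb_eq_DD]; exact DD_mul_const _ _ _ _ c hf

theorem dz_sum {ι : Type*} (s : Finset ι) {F : ι → Cm n → ℂ}
    (hF : ∀ i ∈ s, DifferentiableAt ℝ (F i) z) :
    dz j (fun y => ∑ i ∈ s, F i y) z = ∑ i ∈ s, dz j (F i) z := by
  simp only [dz_eq_DD]; exact DD_sum _ _ _ _ s hF

theorem dzb_sum {ι : Type*} (s : Finset ι) {F : ι → Cm n → ℂ}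
    (hF : ∀ i ∈ s, DifferentiableAt ℝ (F i) z) :
    dzb j (fun y => ∑ i ∈ s, F i y) z = ∑ i ∈ s, dzb j (F i) z := by
  simp only [dzb_eq_DD]; exact DD_sum _ _ _ _ s hF

theorem dz_conj (hf : DifferentiableAt ℝ f z) :
    dz j (fun y => (starRingEnd ℂ) (f y)) z = (starRingEnd ℂ) (dzb j f z) := by
  simp only [dz_eq_DD, dzb_eq_DD, DD_conj _ _ _ _ hf]
  congr 2 <;> simp [map_ofNat]

theorem dzb_conj (hf : DifferentiableAt ℝ f z) :
    dzb j (fun y => (starRingEnd ℂ) (f y)) z = (starRingEnd ℂ) (dz j f z) := by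
  simp only [dz_eq_DD, dzb_eq_DD, DD_conj _ _ _ _ hf]
  congr 2 <;> simp [map_ofNat]

theorem dz_comp_real {ψ : ℝ → ℝ} {ψ' : ℝ} {u : Cm n → ℝ} (hψ : HasDerivAt ψ ψ' (u z))
    (hu : DifferentiableAt ℝ u z) :
    dz j (fun y => ((ψ (u y) : ℝ) : ℂ)) z = (ψ' : ℂ) * dz j (fun y => (u y : ℂ)) z := by
  simp only [dz_eq_DD]; exact DD_comp_real _ _ _ _ hψ hu

theorem dzb_comp_real {ψ : ℝ → ℝ} {ψ' : ℝ} {u : Cm n → ℝ} (hψ : HasDerivAt ψ ψ' (u z))
    (hu : DifferentiableAt ℝ u z) :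
    dzb j (fun y => ((ψ (u y) : ℝ) : ℂ)) z = (ψ' : ℂ) * dzb j (fun y => (u y : ℂ)) z := by
  simp only [dzb_eq_DD]; exact DD_comp_real _ _ _ _ hψ hu

theorem contDiffAt_dz {m k : WithTop ℕ∞} (hf : ContDiffAt ℝ k f z) (hmk : m + 1 ≤ k) :
    ContDiffAt ℝ m (dz j f) z := by
  rw [dz_eq_DD']; exact DD_contDiffAt _ _ _ _ hf hmk

theorem contDiffAt_dzb {m k : WithTop ℕ∞} (hf : ContDiffAt ℝ k f z) (hmk : m + 1 ≤ k) :
    ContDiffAt ℝ m (dzb j f) z := by
  rw [dzb_eq_DD']; exact DD_contDiffAt _ _ _ _ hf hmk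

theorem differentiableAt_dz (hf : ContDiffAt ℝ 2 f z) : DifferentiableAt ℝ (dz j f) z :=
  (contDiffAt_dz (m := 1) j hf (by norm_num)).differentiableAt (by norm_num)

theorem differentiableAt_dzb (hf : ContDiffAt ℝ 2 f z) : DifferentiableAt ℝ (dzb j f) z :=
  (contDiffAt_dzb (m := 1) j hf (by norm_num)).differentiableAt (by norm_num)

theorem dz_dzb_comm (hf : ContDiffAt ℝ 2 f z) : dz j (dzb k f) z = dzb k (dz j f) z := by
  simp only [dz_eq_DD', dzb_eq_DD']; exact DD_comm _ _ _ _ _ _ _ _ hf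

theorem dz_dz_comm (hf : ContDiffAt ℝ 2 f z) : dz j (dz k f) z = dz k (dz j f) z := by
  simp only [dz_eq_DD']; exact DD_comm _ _ _ _ _ _ _ _ hf

theorem dzb_dzb_comm (hf : ContDiffAt ℝ 2 f z) : dzb j (dzb k f) z = dzb k (dzb j f) z := by
  simp only [dzb_eq_DD']; exact DD_comm _ _ _ _ _ _ _ _ hf

theorem contDiffAt_ofReal {m : WithTop ℕ∞} {u : Cm n → ℝ} (hu : ContDiffAt ℝ m u z) :
    ContDiffAt ℝ m (fun y => (u y : ℂ)) z :=
  Complex.ofRealCLM.contDiff.contDiffAt.comp z hu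

theorem contDiffAt_conj {m : WithTop ℕ∞} (hf : ContDiffAt ℝ m f z) :
    ContDiffAt ℝ m (fun y => (starRingEnd ℂ) (f y)) z :=
  (Complex.conjCLE : ℂ →L[ℝ] ℂ).contDiff.contDiffAt.comp z hf

theorem differentiableAt_ofReal {u : Cm n → ℝ} (hu : DifferentiableAt ℝ u z) :
    DifferentiableAt ℝ (fun y => (u y : ℂ)) z :=
  Complex.ofRealCLM.differentiableAt.comp z hu

theorem differentiableAt_conj (hf : DifferentiableAt ℝ f z) :
    DifferentiableAt ℝ (fun y => (starRingEnd ℂ) (f y)) z :=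
  (Complex.conjCLE : ℂ →L[ℝ] ℂ).differentiableAt.comp z hf

theorem dz_real {u : Cm n → ℝ} (hu : DifferentiableAt ℝ u z) :
    dz j (fun y => (u y : ℂ)) z = (starRingEnd ℂ) (dzb j (fun y => (u y : ℂ)) z) := by
  have h := dz_conj j (differentiableAt_ofReal hu)
  simpa using h

theorem dzb_real {u : Cm n → ℝ} (hu : DifferentiableAt ℝ u z) :
    dzb j (fun y => (u y : ℂ)) z = (starRingEnd ℂ) (dz j (fun y => (u y : ℂ)) z) := by
  have h := dzb_conj j (differentiableAt_ofReal hu)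
  simpa using h

end Basic

section CHess

variable {u v : Cm n → ℝ} {z : Cm n}

theorem cHess_apply (j k : Fin n) : cHess u z j k = dz j (dzb k fun y => (u y : ℂ)) z := rfl

theorem cHess_congr (h : u =ᶠ[𝓝 z] v) : cHess u z = cHess v z := by
  ext j k
  rw [cHess_apply, cHess_apply]
  apply dz_congr
  apply dzb_eventuallyEq
  filter_upwards [h] with y hy
  rw [hy]

theorem cHess_eventuallyEq (h : u =ᶠ[𝓝 z] v) : cHess u =ᶠ[𝓝 z] cHess v := by
  filter_upwards [h.eventuallyEq_nhds] with y hy using cHess_congr hy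

theorem eventually_contDiffAt {E F : Type*} [NormedAddCommGroup E] [NormedSpace ℝ E]
    [NormedAddCommGroup F] [NormedSpace ℝ F] {f : E → F} {x : E} {m : ℕ}
    (h : ContDiffAt ℝ m f x) : ∀ᶠ y in 𝓝 x, ContDiffAt ℝ m f y :=
  h.eventually (by simp)

theorem cHess_add (hu : ContDiffAt ℝ 2 u z) (hv : ContDiffAt ℝ 2 v z) :
    cHess (fun y => u y + v y) z = cHess u z + cHess v z := by
  ext j k
  have hu' : ∀ᶠ y in 𝓝 z, ContDiffAt ℝ 2 u y := eventually_contDiffAt (m := 2) hu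
  have hv' : ∀ᶠ y in 𝓝 z, ContDiffAt ℝ 2 v y := eventually_contDiffAt (m := 2) hv
  rw [Matrix.add_apply, cHess_apply, cHess_apply, cHess_apply]
  have e : (dzb k fun y => ((u y + v y : ℝ) : ℂ)) =ᶠ[𝓝 z]
      fun y => dzb k (fun y => (u y : ℂ)) y + dzb k (fun y => (v y : ℂ)) y := by
    filter_upwards [hu', hv'] with y h1 h2
    have : (fun y => ((u y + v y : ℝ) : ℂ)) = fun y => (u y : ℂ) + (v y : ℂ) := by
      ext y; push_cast; ring
    rw [this, dzb_add k (differentiableAt_ofReal (h1.differentiableAt (by norm_num)))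
      (differentiableAt_ofReal (h2.differentiableAt (by norm_num)))]
  rw [dz_congr j e, dz_add j (differentiableAt_dzb k (contDiffAt_ofReal hu))
    (differentiableAt_dzb k (contDiffAt_ofReal hv))]

theorem cHess_const_mul (c : ℝ) (hu : ContDiffAt ℝ 2 u z) :
    cHess (fun y => c * u y) z = (c : ℂ) • cHess u z := by
  ext j k
  have hu' : ∀ᶠ y in 𝓝 z, ContDiffAt ℝ 2 u y := eventually_contDiffAt (m := 2) hu
  rw [Matrix.smul_apply, cHess_apply, cHess_apply]
  have e : (dzb k fun y => ((c * u y : ℝ) : ℂ)) =ᶠ[𝓝 z]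
      fun y => (c : ℂ) * dzb k (fun y => (u y : ℂ)) y := by
    filter_upwards [hu'] with y h1
    have : (fun y => ((c * u y : ℝ) : ℂ)) = fun y => (c : ℂ) * (u y : ℂ) := by
      ext y; push_cast; ring
    rw [this, dzb_const_mul k _ (differentiableAt_ofReal (h1.differentiableAt (by norm_num)))]
  rw [dz_congr j e, dz_const_mul j _ (differentiableAt_dzb k (contDiffAt_ofReal hu)), smul_eq_mul]

theorem cHess_neg (hu : ContDiffAt ℝ 2 u z) :
    cHess (fun y => -u y) z = -cHess u z := by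
  have h := cHess_const_mul (-1) hu
  simpa using h

theorem cHess_sub (hu : ContDiffAt ℝ 2 u z) (hv : ContDiffAt ℝ 2 v z) :
    cHess (fun y => u y - v y) z = cHess u z - cHess v z := by
  have h := cHess_add hu (hv.neg)
  have h2 := cHess_neg hv
  simp only [sub_eq_add_neg]
  rw [← h2, ← h]

theorem cHess_const (c : ℝ) : cHess (fun _ : Cm n => c) z = 0 := by
  ext j k
  rw [cHess_apply]
  have : (dzb k fun _ : Cm n => (c : ℂ)) = fun _ => 0 := by
    ext y; exact dzb_const k _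
  rw [this, dz_const]; rfl

theorem cHess_comp {ψ ψ₁ : ℝ → ℝ} {ψ₂ : ℝ} (hψ : ∀ᶠ s in 𝓝 (u z), HasDerivAt ψ (ψ₁ s) s)
    (hψ₁ : HasDerivAt ψ₁ ψ₂ (u z)) (hu : ContDiffAt ℝ 2 u z) (j k : Fin n) :
    cHess (fun y => ψ (u y)) z j k = (ψ₁ (u z) : ℂ) * cHess u z j k +
      (ψ₂ : ℂ) * (dz j (fun y => (u y : ℂ)) z * dzb k (fun y => (u y : ℂ)) z) := by
  have hu' : ∀ᶠ y in 𝓝 z, ContDiffAt ℝ 2 u y := eventually_contDiffAt (m := 2) hu
  have hd : DifferentiableAt ℝ u z := hu.differentiableAt (by norm_num)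
  rw [cHess_apply, cHess_apply]
  have e : (dzb k fun y => ((ψ (u y) : ℝ) : ℂ)) =ᶠ[𝓝 z]
      fun y => ((ψ₁ (u y) : ℝ) : ℂ) * dzb k (fun y => (u y : ℂ)) y := by
    filter_upwards [hu', hd.continuousAt.eventually hψ] with y h1 h2
    exact dzb_comp_real k h2 (h1.differentiableAt (by norm_num))
  have hdψ : DifferentiableAt ℝ (fun y => ((ψ₁ (u y) : ℝ) : ℂ)) z :=
    differentiableAt_ofReal (hψ₁.differentiableAt.comp z hd)
  rw [dz_congr j e, dz_mul j hdψ (differentiableAt_dzb k (contDiffAt_ofReal hu)),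
    dz_comp_real j hψ₁ hd]
  ring

theorem cHess_log (hu : ContDiffAt ℝ 2 u z) (h0 : 0 < u z) (j k : Fin n) :
    cHess (fun y => Real.log (u y)) z j k = ((u z)⁻¹ : ℂ) * cHess u z j k -
      ((u z ^ 2)⁻¹ : ℂ) * (dz j (fun y => (u y : ℂ)) z * dzb k (fun y => (u y : ℂ)) z) := by
  have h := cHess_comp (ψ := Real.log) (ψ₁ := fun s => s⁻¹) (ψ₂ := -(u z ^ 2)⁻¹) (u := u) (z := z)
    (by
      filter_upwards [(isOpen_Ioi (a := (0 : ℝ))).mem_nhds h0] with s hs
      exact Real.hasDerivAt_log (ne_of_gt hs))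
    (by simpa using hasDerivAt_inv (ne_of_gt h0)) hu j k
  rw [h]
  push_cast
  ring

theorem cHess_isHermitian (hu : ContDiffAt ℝ 2 u z) : (cHess u z).IsHermitian := by
  ext j k
  have hu' : ∀ᶠ y in 𝓝 z, ContDiffAt ℝ 2 u y := eventually_contDiffAt (m := 2) hu
  rw [Matrix.conjTranspose_apply, cHess_apply, cHess_apply]
  have e : (dzb j fun y => (u y : ℂ)) =ᶠ[𝓝 z]
      fun y => (starRingEnd ℂ) (dz j (fun y => (u y : ℂ)) y) := by
    filter_upwards [hu'] with y h1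
    exact dzb_real j (h1.differentiableAt (by norm_num))
  rw [dz_congr k e, dz_conj k (differentiableAt_dz j (contDiffAt_ofReal hu)),
    dz_dzb_comm j k (contDiffAt_ofReal hu)]
  simp

theorem contDiffAt_cHess {m k : WithTop ℕ∞} (hu : ContDiffAt ℝ k u z) (hmk : m + 1 + 1 ≤ k)
    (i j : Fin n) : ContDiffAt ℝ m (fun y => cHess u y i j) z :=
  contDiffAt_dz i (contDiffAt_dzb (m := m + 1) j (contDiffAt_ofReal hu) hmk) le_rfl

end CHess

end Vale.Agent.P272.K.C2
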