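import Vale.Agent.P272.K.C2.LogDet
import Vale.Agent.P272.K.C2.PosLin

/-!
# The Chern–Lu formula for `log tr (G⁻¹ H)` in a chart
-/

open scoped Manifold ContDiff ComplexOrder Topology Matrix
open MeasureTheory

noncomputable section

namespace Vale.Agent.P272.K.C2

variable {n : ℕ} {G H : Cm n → Matrix (Fin n) (Fin n) ℂ} {z : Cm n}

theorem det_re_eq {A : Matrix (Fin n) (Fin n) ℂ} (h : A.PosDef) : ((A.det.re : ℝ) : ℂ) = A.det := by
  have := h.det_pos
  rw [Complex.lt_def] at this
  apply Complex.ext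
  · simp
  · simpa using this.2

theorem det_re_pos {A : Matrix (Fin n) (Fin n) ℂ} (h : A.PosDef) : 0 < A.det.re := by
  have := h.det_pos
  rw [Complex.lt_def] at this
  simpa using this.1

theorem cHess_log_det (hG : MC 2 G z) (hpos : ∀ᶠ y in 𝓝 z, (G y).PosDef) (i j : Fin n) :
    cHess (fun y => Real.log (G y).det.re) z i j =
      ((G z)⁻¹ * D2 i j G z).trace - ((G z)⁻¹ * DM i G z * (G z)⁻¹ * DMb j G z).trace := by
  have one : (1 : WithTop ℕ∞) ≠ 0 := by norm_num
  have hG1 : MC 1 G z := hG.mono (by norm_num)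
  have h0 : (G z).det ≠ 0 := posDef_det_ne_zero hpos.self_of_nhds
  have e : (dzb j fun y => ((Real.log (G y).det.re : ℝ) : ℂ)) =ᶠ[𝓝 z]
      fun y => ((G y)⁻¹ * DMb j G y).trace := by
    filter_upwards [MC.eventually (q := 1) hG1, hpos.eventually_nhds] with y h1 h2
    have h3 : (G y).PosDef := h2.self_of_nhds
    have hd : DifferentiableAt ℝ (fun y => (G y).det.re) y :=
      Complex.reCLM.differentiableAt.comp y (h1.det.differentiableAt one)
    rw [dzb_comp_real j (Real.hasDerivAt_log (det_re_pos h3).ne') hd]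
    have e2 : (fun y => (((G y).det.re : ℝ) : ℂ)) =ᶠ[𝓝 y] fun y => (G y).det := by
      filter_upwards [h2] with y' h4 using det_re_eq h4
    rw [dzb_congr j e2, dzb_det (h1.md one) (posDef_det_ne_zero h3), ← mul_assoc]
    have : (((G y).det.re)⁻¹ : ℝ) * (G y).det = 1 := by
      rw [← det_re_eq h3, ← Complex.ofReal_mul, Complex.ofReal_re,
        inv_mul_cancel₀ (det_re_pos h3).ne', Complex.ofReal_one]
    rw [this, one_mul]
  have hGi : MC 1 (fun y => (G y)⁻¹) z := hG1.inv h0
  have hGj : MC 1 (DMb j G) z := hG.DMb (by norm_num)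
  rw [cHess_apply, dz_congr i e, dz_trace ((hGi.mul hGj).md one),
    DM_mul (hGi.md one) (hGj.md one), DM_inv hG1 h0, Matrix.trace_add, Matrix.neg_mul,
    Matrix.trace_neg]
  ring

theorem ricci_identity (hG : MC 2 G z) (hpos : ∀ᶠ y in 𝓝 z, (G y).PosDef)
    (hK : ∀ᶠ y in 𝓝 z, ∀ i j k, dz k (fun y => G y i j) y = dz i (fun y => G y k j) y) :
    ∑ l, ∑ k, (G z)⁻¹ l k • RM k l G z = -cHess (fun y => Real.log (G y).det.re) z := by
  have one : (1 : WithTop ℕ∞) ≠ 0 := by norm_num
  have hG1 : MC 1 G z := hG.mono (by norm_num)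
  have hHerm : ∀ᶠ y in 𝓝 z, (G y).IsHermitian := by
    filter_upwards [hpos] with y hy using hy.isHermitian
  have hKb : ∀ᶠ y in 𝓝 z, ∀ i j k, dzb k (fun y => G y i j) y = dzb j (fun y => G y i k) y := by
    filter_upwards [hK, MC.eventually (q := 1) hG1, hHerm.eventually_nhds] with y h1 h2 h3 i j k
    have a : ∀ i j k, dzb k (fun y => G y i j) y = (starRingEnd ℂ) (dz k (fun y => G y j i) y) := by
      intro i j k
      have := congrFun (congrFun (DMb_of_isHermitian (k := k) (h2.md one) h3) i) j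
      simpa using this
    rw [a, a, h1]
  ext i j
  rw [Matrix.neg_apply, cHess_log_det hG hpos i j]
  simp only [Matrix.sum_apply, Matrix.smul_apply, RM, Matrix.add_apply, Matrix.neg_apply,
    smul_eq_mul]
  have s1 : ∀ k l, D2 k l G z i j = D2 i j G z k l := by
    intro k l
    show dz k (fun y => dzb l (fun y => G y i j) y) z = dz i (fun y => dzb j (fun y => G y k l) y) z
    have e1 : (fun y => dzb l (fun y => G y i j) y) =ᶠ[𝓝 z] dzb j fun y => G y i l := by
      filter_upwards [hKb] with y hy using hy i j l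
    rw [dz_congr k e1, dz_dzb_comm k j (hG i l)]
    have e2 : dz k (fun y => G y i l) =ᶠ[𝓝 z] dz i fun y => G y k l := by
      filter_upwards [hK] with y hy using hy i l k
    rw [dzb_congr j e2, ← dz_dzb_comm i j (hG k l)]
  have s2 : ∀ k l, (DM k G z * (G z)⁻¹ * DMb l G z) i j =
      ∑ q, ∑ p, DM i G z k p * (G z)⁻¹ p q * DMb j G z q l := by
    intro k l
    rw [Matrix.mul_apply]
    refine Finset.sum_congr rfl fun q _ => ?_
    rw [Matrix.mul_apply, Finset.sum_mul]
    refine Finset.sum_congr rfl fun p _ => ?_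
    rw [DM_apply, DM_apply, DMb_apply, DMb_apply, hK.self_of_nhds i p k,
      hKb.self_of_nhds q j l]
  have t1 : ((G z)⁻¹ * D2 i j G z).trace = ∑ l, ∑ k, (G z)⁻¹ l k * D2 k l G z i j := by
    rw [Matrix.trace]
    refine Finset.sum_congr rfl fun l _ => ?_
    rw [Matrix.diag_apply, Matrix.mul_apply]
    exact Finset.sum_congr rfl fun k _ => by rw [s1]
  have t2 : ((G z)⁻¹ * DM i G z * (G z)⁻¹ * DMb j G z).trace =
      ∑ l, ∑ k, (G z)⁻¹ l k * (DM k G z * (G z)⁻¹ * DMb l G z) i j := by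
    have : (G z)⁻¹ * DM i G z * (G z)⁻¹ * DMb j G z =
        (G z)⁻¹ * (DM i G z * (G z)⁻¹ * DMb j G z) := by simp only [Matrix.mul_assoc]
    rw [this, Matrix.trace]
    refine Finset.sum_congr rfl fun l _ => ?_
    rw [Matrix.diag_apply, Matrix.mul_apply]
    refine Finset.sum_congr rfl fun k _ => ?_
    rw [s2, Matrix.mul_apply]
    congr 1
    refine Finset.sum_congr rfl fun q _ => ?_
    rw [Matrix.mul_apply, Finset.sum_mul]
  rw [t1, t2, neg_sub, ← Finset.sum_sub_distrib]
  refine Finset.sum_congr rfl fun l _ => ?_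
  rw [← Finset.sum_sub_distrib]
  exact Finset.sum_congr rfl fun k _ => by ring

/-- the scalar `tr (G⁻¹ H)` -/
def tau (G H : Cm n → Matrix (Fin n) (Fin n) ℂ) (y : Cm n) : ℝ := ((G y)⁻¹ * H y).trace.re

theorem trace_re_eq {A B : Matrix (Fin n) (Fin n) ℂ} (hA : A.PosDef) (hB : B.PosDef) :
    (((A⁻¹ * B).trace.re : ℝ) : ℂ) = (A⁻¹ * B).trace := by
  have := trace_mul_nonneg hA.inv.posSemidef hB.posSemidef
  rw [Complex.le_def] at this
  apply Complex.ext
  · simp
  · simpa using this.2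

theorem trace_re_pos [NeZero n] {A B : Matrix (Fin n) (Fin n) ℂ} (hA : A.PosDef)
    (hB : B.PosDef) : 0 < (A⁻¹ * B).trace.re := by
  have := trace_mul_pos hA.inv hB
  rw [Complex.lt_def] at this
  simpa using this.1

/-- Exact Chern–Lu formula, in the form
`τ Δ log τ = (nonnegative) - (curvature of H) + (Ricci of G)`. -/
theorem chernLu [NeZero n] (hG : MC 2 G z) (hH : MC 2 H z) (hGp : ∀ᶠ y in 𝓝 z, (G y).PosDef)
    (hHp : ∀ᶠ y in 𝓝 z, (H y).PosDef)
    (hK : ∀ᶠ y in 𝓝 z, ∀ i j k, dz k (fun y => G y i j) y = dz i (fun y => G y k j) y) :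
    ∃ C : Fin n → Matrix (Fin n) (Fin n) ℂ,
      (tau G H z : ℂ) * ((G z)⁻¹ * cHess (fun y => Real.log (tau G H y)) z).trace =
        ∑ l, ∑ k, (G z)⁻¹ l k * (C k * (H z)⁻¹ * (C l)ᴴ * (G z)⁻¹).trace
        - ∑ l, ∑ k, (G z)⁻¹ l k * ((G z)⁻¹ * RM k l H z).trace
        + ((G z)⁻¹ * (-cHess (fun y => Real.log (G y).det.re) z) * (G z)⁻¹ * H z).trace := by
  have one : (1 : WithTop ℕ∞) ≠ 0 := by norm_num
  have hG1 : MC 1 G z := hG.mono (by norm_num)
  have hH1 : MC 1 H z := hH.mono (by norm_num)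
  have g0 := posDef_det_ne_zero hGp.self_of_nhds
  have h0 := posDef_det_ne_zero hHp.self_of_nhds
  have hGh : ∀ᶠ y in 𝓝 z, (G y).IsHermitian := by
    filter_upwards [hGp] with y hy using hy.isHermitian
  have hHh : ∀ᶠ y in 𝓝 z, (H y).IsHermitian := by
    filter_upwards [hHp] with y hy using hy.isHermitian
  set P := (G z)⁻¹ with hP
  set Q := (H z)⁻¹ with hQ
  set t : ℝ := tau G H z with ht
  have tpos : 0 < t := trace_re_pos hGp.self_of_nhds hHp.self_of_nhds
  have t0 : (t : ℂ) ≠ 0 := by exact_mod_cast tpos.ne'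
  have htc : (t : ℂ) = (P * H z).trace := trace_re_eq hGp.self_of_nhds hHp.self_of_nhds
  set b : Fin n → ℂ := fun k => (BM k G H z * P).trace with hb
  -- the complex valued trace
  have ec : (fun y => ((tau G H y : ℝ) : ℂ)) =ᶠ[𝓝 z] fun y => ((G y)⁻¹ * H y).trace := by
    filter_upwards [hGp, hHp] with y h1 h2 using trace_re_eq h1 h2
  have hT : ContDiffAt ℝ 2 (fun y => ((G y)⁻¹ * H y).trace) z := ((hG.inv g0).mul hH).trace
  have hTr : ContDiffAt ℝ 2 (tau G H) z := Complex.reCLM.contDiff.contDiffAt.comp z hT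
  have hdz : ∀ k, dz k (fun y => ((tau G H y : ℝ) : ℂ)) z = b k := fun k => by
    rw [dz_congr k ec, dz_trace_inv_mul hG1 hH1 g0]
  have hdzb : ∀ k, dzb k (fun y => ((tau G H y : ℝ) : ℂ)) z = (starRingEnd ℂ) (b k) := fun k => by
    rw [dzb_real k (hTr.differentiableAt (by norm_num)), hdz]
  have hHs : ∀ k l, cHess (tau G H) z k l =
      (BM k G H z * Q * (BM l G H z)ᴴ * P).trace - (P * RM k l H z).trace +
        (P * RM k l G z * P * H z).trace := by
    intro k l
    rw [cHess_apply, dz_congr k (dzb_eventuallyEq l ec), dz_dzb_trace_inv_mul hG hH hGh hHh g0 h0]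
  refine ⟨fun k => BM k G H z - (b k / t) • H z, ?_⟩
  have hlog : ∀ k l, (t : ℂ) * cHess (fun y => Real.log (tau G H y)) z k l =
      (BM k G H z * Q * (BM l G H z)ᴴ * P).trace - (P * RM k l H z).trace +
        (P * RM k l G z * P * H z).trace - b k * (starRingEnd ℂ) (b l) / t := by
    intro k l
    rw [cHess_log hTr tpos k l, hHs, hdz, hdzb, ← ht]
    field_simp
  have hC : ∀ k l, ((BM k G H z - (b k / t) • H z) * Q * (BM l G H z - (b l / t) • H z)ᴴ * P).trace
      = (BM k G H z * Q * (BM l G H z)ᴴ * P).trace - b k * (starRingEnd ℂ) (b l) / t := by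
    intro k l
    have hHe : (H z)ᴴ = H z := hHh.self_of_nhds
    have hPe : Pᴴ = P := by
      rw [hP, Matrix.conjTranspose_nonsing_inv, hGh.self_of_nhds]
    have hHQ : H z * Q = 1 := Matrix.mul_nonsing_inv _ (isUnit_iff_ne_zero.2 h0)
    have hQH : Q * H z = 1 := Matrix.nonsing_inv_mul _ (isUnit_iff_ne_zero.2 h0)
    have x1 : (BM k G H z * Q * H z * P).trace = b k := by
      rw [Matrix.mul_assoc (BM k G H z), hQH, Matrix.mul_one]
    have x2 : (H z * Q * (BM l G H z)ᴴ * P).trace = (starRingEnd ℂ) (b l) := by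
      rw [hHQ, Matrix.one_mul, hb]
      have : (BM l G H z)ᴴ * P = (P * BM l G H z)ᴴ := by
        rw [Matrix.conjTranspose_mul, hPe]
      rw [this, Matrix.trace_conjTranspose, Matrix.trace_mul_comm]
      rfl
    have x3 : (H z * Q * H z * P).trace = t := by
      rw [hHQ, Matrix.one_mul, Matrix.trace_mul_comm, htc]
    rw [Matrix.conjTranspose_sub, Matrix.conjTranspose_smul, hHe]
    simp only [Matrix.sub_mul, Matrix.mul_sub, Matrix.smul_mul, Matrix.mul_smul, Matrix.trace_sub,
      Matrix.trace_smul, x1, x2, x3, smul_eq_mul]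
    have hst : star (b l / (t : ℂ)) = (starRingEnd ℂ) (b l) / t := by
      rw [RCLike.star_def, map_div₀, Complex.conj_ofReal]
    rw [hst]
    field_simp
    ring
  have hric := ricci_identity hG hGp hK
  have r1 : (P * (-cHess (fun y => Real.log (G y).det.re) z) * P * H z).trace =
      ∑ l, ∑ k, P l k * (P * RM k l G z * P * H z).trace := by
    rw [← hric]
    simp only [Matrix.mul_sum, Matrix.sum_mul, Matrix.trace_sum, Matrix.mul_smul, Matrix.smul_mul,
      Matrix.trace_smul, smul_eq_mul]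
    rfl
  have l1 : (t : ℂ) * (P * cHess (fun y => Real.log (tau G H y)) z).trace =
      ∑ l, ∑ k, P l k * ((t : ℂ) * cHess (fun y => Real.log (tau G H y)) z k l) := by
    rw [Matrix.trace, Finset.mul_sum]
    refine Finset.sum_congr rfl fun l _ => ?_
    rw [Matrix.diag_apply, Matrix.mul_apply, Finset.mul_sum]
    exact Finset.sum_congr rfl fun k _ => by ring
  rw [l1, r1, ← Finset.sum_sub_distrib, ← Finset.sum_add_distrib]
  refine Finset.sum_congr rfl fun l _ => ?_
  rw [← Finset.sum_sub_distrib, ← Finset.sum_add_distrib]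
  refine Finset.sum_congr rfl fun k _ => ?_
  rw [hC, hlog]
  ring

end Vale.Agent.P272.K.C2
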