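import Vale.Agent.P272.K.C2.PosLin

/-!
# From the trace bound and the determinant bound to the reverse bound
-/

open scoped ComplexOrder Matrix

noncomputable section

namespace Vale.Agent.P272.K.C2

variable {ι : Type*} [Fintype ι] [DecidableEq ι]

/-- if `C K ≥ 1` and `K > 0`, then `tr K ≤ (card ι) C^(card ι - 1) det K` -/
theorem trace_le_of_inv_bound {K : Matrix ι ι ℂ} (hK : K.PosDef) {C : ℝ}
    (h : ((C : ℂ) • K - 1).PosSemidef) :
    K.trace.re ≤ Fintype.card ι * (C ^ (Fintype.card ι - 1) * K.det.re) := by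
  have hH := hK.isHermitian
  set ev := hH.eigenvalues with hev
  have hpos : ∀ i, 0 < ev i := hK.eigenvalues_pos
  have hlow : ∀ i, 1 ≤ C * ev i := by
    intro i
    set v : ι → ℂ := ⇑(hH.eigenvectorBasis i) with hv
    have hKv : K *ᵥ v = (ev i : ℂ) • v := by
      have := hH.mulVec_eigenvectorBasis i
      rw [← hev] at this
      rw [hv, this]
      ext j
      simp
    have hvv : star v ⬝ᵥ v = 1 := by
      have h1 : ‖hH.eigenvectorBasis i‖ = 1 := hH.eigenvectorBasis.norm_eq_one i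
      have h2 := EuclideanSpace.norm_sq_eq (hH.eigenvectorBasis i)
      rw [h1] at h2
      have h3 : star v ⬝ᵥ v = ((∑ j, ‖v j‖ ^ 2 : ℝ) : ℂ) := by
        rw [dotProduct]
        push_cast
        refine Finset.sum_congr rfl fun j _ => ?_
        rw [Pi.star_apply, RCLike.star_def, mul_comm, Complex.mul_conj, Complex.normSq_eq_norm_sq]
        push_cast; ring
      rw [h3, ← h2]
      norm_num
    have h4 := h.dotProduct_mulVec_nonneg v
    rw [Matrix.sub_mulVec, Matrix.one_mulVec, Matrix.smul_mulVec, hKv, dotProduct_sub,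
      dotProduct_smul, dotProduct_smul, hvv] at h4
    have h5 : ((0 : ℝ) : ℂ) ≤ ((C * ev i - 1 : ℝ) : ℂ) := by
      push_cast
      simpa using h4
    have := Complex.real_le_real.1 h5
    linarith
  have htr : K.trace.re = ∑ i, ev i := by
    rw [hH.trace_eq_sum_eigenvalues, ← hev]
    simp
  have hdet : K.det.re = ∏ i, ev i := by
    rw [hH.det_eq_prod_eigenvalues, ← hev]
    have : (∏ i, (RCLike.ofReal (ev i) : ℂ)) = ((∏ i, ev i : ℝ) : ℂ) := by push_cast; rfl
    rw [this]
    exact Complex.ofReal_re _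
  rw [htr, hdet]
  have hone : ∀ i, ev i ≤ C ^ (Fintype.card ι - 1) * ∏ i, ev i := by
    intro i
    rw [← Finset.mul_prod_erase Finset.univ _ (Finset.mem_univ i)]
    have h1 : (1 : ℝ) ≤ C ^ (Fintype.card ι - 1) * ∏ j ∈ Finset.univ.erase i, ev j := by
      have hc : Fintype.card ι - 1 = (Finset.univ.erase i).card := by
        rw [Finset.card_erase_of_mem (Finset.mem_univ i), Finset.card_univ]
      rw [hc, ← Finset.prod_const, ← Finset.prod_mul_distrib]
      exact Finset.one_le_prod fun j _ => hlow j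
    have h2 := mul_le_mul_of_nonneg_left h1 (hpos i).le
    calc ev i = ev i * 1 := (mul_one _).symm
      _ ≤ ev i * (C ^ (Fintype.card ι - 1) * ∏ j ∈ Finset.univ.erase i, ev j) := h2
      _ = _ := by ring
  calc ∑ i, ev i ≤ ∑ _i : ι, C ^ (Fintype.card ι - 1) * ∏ i, ev i :=
        Finset.sum_le_sum fun i _ => hone i
    _ = _ := by rw [Finset.sum_const, Finset.card_univ, nsmul_eq_mul]

/-- if `H ≤ C G` and `det G ≤ D det H` then `tr (H⁻¹ G) ≤ n C^(n-1) D` -/
theorem trace_inv_mul_le {G H : Matrix ι ι ℂ} (hG : G.PosDef) (hH : H.PosDef) {C D : ℝ}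
    (hC : 0 < C) (h : ((C : ℂ) • G - H).PosSemidef) (hD : G.det.re ≤ D * H.det.re) :
    (H⁻¹ * G).trace.re ≤ Fintype.card ι * (C ^ (Fintype.card ι - 1) * D) := by
  obtain ⟨A, hA⟩ := exists_factor hH.posSemidef
  have hdet : A.det ≠ 0 := by
    intro h
    have := hH.det_pos
    rw [hA, Matrix.det_mul, h, mul_zero] at this
    exact lt_irrefl _ this
  have hAu : IsUnit A.det := isUnit_iff_ne_zero.2 hdet
  have hAu' : IsUnit Aᴴ.det := by
    rw [Matrix.det_conjTranspose]; exact hAu.star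
  have hAi : IsUnit A⁻¹ := by
    rw [Matrix.isUnit_iff_isUnit_det]
    exact Matrix.isUnit_nonsing_inv_det _ hAu
  have hK : (A⁻¹ᴴ * G * A⁻¹).PosDef := by
    have := (Matrix.IsUnit.posDef_star_left_conjugate_iff (x := G) hAi).2 hG
    simpa [Matrix.star_eq_conjTranspose] using this
  have a1 : A⁻¹ᴴ * Aᴴ = 1 := by
    rw [Matrix.conjTranspose_nonsing_inv, Matrix.nonsing_inv_mul _ hAu']
  have h1 : ((C : ℂ) • (A⁻¹ᴴ * G * A⁻¹) - 1).PosSemidef := by
    have := h.conjTranspose_mul_mul_same A⁻¹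
    have e : A⁻¹ᴴ * ((C : ℂ) • G - H) * A⁻¹ = (C : ℂ) • (A⁻¹ᴴ * G * A⁻¹) - 1 := by
      rw [Matrix.mul_sub, Matrix.sub_mul, Matrix.mul_smul, Matrix.smul_mul]
      congr 1
      calc A⁻¹ᴴ * H * A⁻¹ = (A⁻¹ᴴ * Aᴴ) * (A * A⁻¹) := by rw [hA]; simp only [Matrix.mul_assoc]
        _ = 1 := by rw [a1, Matrix.mul_nonsing_inv _ hAu, Matrix.one_mul]
    rwa [e] at this
  have h2 : (A⁻¹ᴴ * G * A⁻¹).trace = (H⁻¹ * G).trace := by
    rw [Matrix.trace_mul_comm, ← Matrix.mul_assoc, hA, Matrix.mul_inv_rev,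
      Matrix.conjTranspose_nonsing_inv]
  have hdetH : H.det = (Complex.normSq A.det : ℂ) := by
    rw [hA, Matrix.det_mul, Matrix.det_conjTranspose, mul_comm, RCLike.star_def, Complex.mul_conj]
  have hns : 0 < Complex.normSq A.det := Complex.normSq_pos.2 hdet
  have h3 : (A⁻¹ᴴ * G * A⁻¹).det.re ≤ D := by
    have e : (A⁻¹ᴴ * G * A⁻¹).det = ((Complex.normSq A.det)⁻¹ : ℝ) * G.det := by
      rw [Matrix.det_mul, Matrix.det_mul, Matrix.det_conjTranspose, Matrix.det_nonsing_inv,
        Ring.inverse_eq_inv', RCLike.star_def, map_inv₀]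
      have : (Complex.normSq A.det : ℂ) = A.det * (starRingEnd ℂ) A.det := (Complex.mul_conj _).symm
      push_cast
      rw [this, mul_inv]
      ring
    rw [e, Complex.re_ofReal_mul, inv_mul_le_iff₀ hns]
    rw [hdetH, Complex.ofReal_re] at hD
    linarith
  have h4 := trace_le_of_inv_bound hK h1
  rw [h2] at h4
  refine h4.trans ?_
  gcongr

end Vale.Agent.P272.K.C2
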