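import Vale.Agent.P272.K.C2.Point
import Vale.Agent.P272.K.N.Compare
import Vale.Agent.P272.K.Inv.Chart

/-!
# The `C²` estimate for the complex Monge–Ampère equation (Chern–Lu)
-/

open scoped Manifold ContDiff ComplexOrder Topology Matrix
open MeasureTheory

noncomputable section

namespace Vale.Agent.P272.K.C2

variable {n : ℕ} {X : Type*} [TopologicalSpace X] [ChartedSpace (Cm n) X]

/-- smooth solutions of the Monge–Ampère equation at parameter `s` -/
structure Sol (χ : Chart n X → Cm n → Matrix (Fin n) (Fin n) ℂ) (F : X → ℝ) (s : ℝ) (u : X → ℝ) :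
    Prop where
  smooth : SmoothFn (n := n) u
  pos : ∀ e x, At e x → (addH χ u e (e x)).PosDef
  eqn : ∀ e x, At e x →
    Real.log (addH χ u e (e x)).det.re - Real.log (χ e (e x)).det.re = u x + s * F x

/-- the error term in the Ricci curvature -/
def Th (χ : Chart n X → Cm n → Matrix (Fin n) (Fin n) ℂ) (F : X → ℝ) (s : ℝ) (e : Chart n X)
    (z : Cm n) : Matrix (Fin n) (Fin n) ℂ :=
  cHess (fun y => Real.log (χ e y).det.re) z - χ e z + (s : ℂ) • cHess (fun y => F (e.symm y)) z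

/-- uniform bounds for the data at a point in a chart -/
structure Bd (χ : Chart n X → Cm n → Matrix (Fin n) (Fin n) ℂ) (F : X → ℝ) (M : ℝ) (e : Chart n X)
    (x : X) : Prop where
  at' : At e x
  rm : ∀ k l i j, ‖RM k l (χ e) (e x) i j‖ ≤ M
  th : ∀ s : ℝ, 0 ≤ s → s ≤ 1 → ∀ i j, ‖Th χ F s e (e x) i j‖ ≤ M
  met : ∀ i j, ‖χ e (e x) i j‖ ≤ M
  inv : ((χ e (e x))⁻¹).trace.re ≤ M

theorem Bd.mono {χ : Chart n X → Cm n → Matrix (Fin n) (Fin n) ℂ} {F : X → ℝ} {M M' : ℝ}
    {e : Chart n X} {x : X} (h : Bd χ F M e x) (hM : M ≤ M') : Bd χ F M' e x :=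
  ⟨h.at', fun k l i j => (h.rm k l i j).trans hM, fun s h0 h1 i j => (h.th s h0 h1 i j).trans hM,
    fun i j => (h.met i j).trans hM, h.inv.trans hM⟩

section local_

variable {χ : Chart n X → Cm n → Matrix (Fin n) (Fin n) ℂ} {F u : X → ℝ} {e : Chart n X} {x : X}

omit [TopologicalSpace X] [ChartedSpace (Cm n) X] in
theorem nat_le_infty (k : ℕ) : ((k : ℕ) : WithTop ℕ∞) ≤ ∞ := by
  exact_mod_cast (le_top : ((k : ℕ) : ℕ∞) ≤ ⊤)

theorem mc_of_smooth (hχ : IsHermitian χ) (h : At e x) (m : ℕ) : MC m (χ e) (e x) :=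
  fun i j => (hχ.smooth e x h i j).of_le (nat_le_infty m)

theorem mc_cHess (hu : SmoothFn (n := n) u) (h : At e x) (m : ℕ) :
    MC m (cHess fun y => u (e.symm y)) (e x) := by
  intro i j
  have : ContDiffAt ℝ ((m + 2 : ℕ) : WithTop ℕ∞) (fun y => u (e.symm y)) (e x) :=
    (hu e x h).of_le (nat_le_infty (m + 2))
  exact contDiffAt_cHess this (by norm_cast) i j

theorem eventually_posDef {g : Chart n X → Cm n → Matrix (Fin n) (Fin n) ℂ}
    (hg : ∀ e x, At e x → (g e (e x)).PosDef) (h : At e x) :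
    ∀ᶠ y in 𝓝 (e x), (g e y).PosDef := by
  filter_upwards [h.nhds_target] with y hy
  have := hg e (e.symm y) (At.of_target h.1 hy)
  rwa [e.right_inv hy] at this

theorem mc_log_det (hχ : IsHermitian χ) (h : At e x) (m : ℕ) :
    ContDiffAt ℝ m (fun y => Real.log (χ e y).det.re) (e x) := by
  have h1 : ContDiffAt ℝ m (fun y => (χ e y).det.re) (e x) :=
    Complex.reCLM.contDiff.contDiffAt.comp (e x) (mc_of_smooth hχ h m).det
  exact h1.log (det_re_pos (hχ.posDef e x h)).ne'

theorem exists_bd (hχ : IsKahler χ) (hF : SmoothFn (n := n) F) (h : At e x) :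
    ∃ M : ℝ, 0 ≤ M ∧ ∀ᶠ x' in 𝓝 x, Bd χ F M e x' := by
  have hH := hχ.toIsHermitian
  have c1 : ∀ k l i j, ContinuousAt (fun z => ‖RM k l (χ e) z i j‖) (e x) := by
    intro k l i j
    have hm : MC 2 (χ e) (e x) := mc_of_smooth hH h 2
    have a1 : MC 1 (DMb l (χ e)) (e x) := hm.DMb (by norm_num)
    have a0 : MC 0 (DMb l (χ e)) (e x) := a1.mono (by norm_num)
    have a2 : MC 0 (DM k (DMb l (χ e))) (e x) := a1.DM (by norm_num)
    have a3 : MC 1 (DM k (χ e)) (e x) := hm.DM (by norm_num)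
    have a4 : MC 0 (DM k (χ e)) (e x) := a3.mono (by norm_num)
    have a5 : MC 0 (fun y => (χ e y)⁻¹) (e x) :=
      (hm.mono (by norm_num)).inv (posDef_det_ne_zero (hH.posDef e x h))
    have a6 : MC 0 (fun z => -DM k (DMb l (χ e)) z + DM k (χ e) z * (χ e z)⁻¹ * DMb l (χ e) z)
        (e x) := a2.neg.add ((a4.mul a5).mul a0)
    exact (a6 i j).continuousAt.norm
  have c2 : ∀ i j, ContinuousAt
      (fun z => ‖cHess (fun y => Real.log (χ e y).det.re) z i j‖) (e x) := fun i j =>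
    (contDiffAt_cHess (m := 0) (mc_log_det hH h 2) (by norm_num) i j).continuousAt.norm
  have c3 : ∀ i j, ContinuousAt (fun z => ‖χ e z i j‖) (e x) := fun i j =>
    ((mc_of_smooth hH h 0) i j).continuousAt.norm
  have c4 : ∀ i j, ContinuousAt (fun z => ‖cHess (fun y => F (e.symm y)) z i j‖) (e x) := fun i j =>
    ((mc_cHess hF h 0) i j).continuousAt.norm
  have c5 : ContinuousAt (fun z => ‖((χ e z)⁻¹).trace‖) (e x) :=
    (((mc_of_smooth hH h 0).inv
      (posDef_det_ne_zero (hH.posDef e x h))).trace).continuousAt.norm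
  set B : Cm n → ℝ := fun z => (∑ k, ∑ l, ∑ i, ∑ j, ‖RM k l (χ e) z i j‖) +
    (∑ i, ∑ j, ‖cHess (fun y => Real.log (χ e y).det.re) z i j‖) + (∑ i, ∑ j, ‖χ e z i j‖) +
    (∑ i, ∑ j, ‖cHess (fun y => F (e.symm y)) z i j‖) + ‖((χ e z)⁻¹).trace‖ with hB
  have s4 : ∀ f : Fin n → Fin n → Fin n → Fin n → ℝ, (∀ k l i j, 0 ≤ f k l i j) →
      ∀ k l i j, f k l i j ≤ ∑ k, ∑ l, ∑ i, ∑ j, f k l i j := by
    intro f hf k l i j
    calc f k l i j ≤ ∑ j, f k l i j :=
          Finset.single_le_sum (f := fun j => f k l i j) (fun j _ => hf k l i j) (Finset.mem_univ j)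
      _ ≤ ∑ i, ∑ j, f k l i j :=
          Finset.single_le_sum (f := fun i => ∑ j, f k l i j)
            (fun i _ => Finset.sum_nonneg fun j _ => hf k l i j) (Finset.mem_univ i)
      _ ≤ ∑ l, ∑ i, ∑ j, f k l i j :=
          Finset.single_le_sum (f := fun l => ∑ i, ∑ j, f k l i j)
            (fun l _ => Finset.sum_nonneg fun i _ => Finset.sum_nonneg fun j _ => hf k l i j)
            (Finset.mem_univ l)
      _ ≤ _ := Finset.single_le_sum (f := fun k => ∑ l, ∑ i, ∑ j, f k l i j)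
            (fun k _ => Finset.sum_nonneg fun l _ => Finset.sum_nonneg fun i _ =>
              Finset.sum_nonneg fun j _ => hf k l i j) (Finset.mem_univ k)
  have s2 : ∀ f : Fin n → Fin n → ℝ, (∀ i j, 0 ≤ f i j) → ∀ i j, f i j ≤ ∑ i, ∑ j, f i j := by
    intro f hf i j
    calc f i j ≤ ∑ j, f i j :=
          Finset.single_le_sum (f := fun j => f i j) (fun j _ => hf i j) (Finset.mem_univ j)
      _ ≤ _ := Finset.single_le_sum (f := fun i => ∑ j, f i j)
            (fun i _ => Finset.sum_nonneg fun j _ => hf i j) (Finset.mem_univ i)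
  have p2 : ∀ f : Fin n → Fin n → ℂ, 0 ≤ ∑ i, ∑ j, ‖f i j‖ := fun f =>
    Finset.sum_nonneg fun i _ => Finset.sum_nonneg fun j _ => norm_nonneg _
  have p4 : ∀ f : Fin n → Fin n → Fin n → Fin n → ℂ, 0 ≤ ∑ k, ∑ l, ∑ i, ∑ j, ‖f k l i j‖ :=
    fun f => Finset.sum_nonneg fun k _ => Finset.sum_nonneg fun l _ =>
      Finset.sum_nonneg fun i _ => Finset.sum_nonneg fun j _ => norm_nonneg _
  have hBc : ContinuousAt B (e x) := by
    refine ((((?_ : ContinuousAt _ _).add ?_).add ?_).add ?_).add c5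
    · exact tendsto_finsetSum _ fun k _ => tendsto_finsetSum _ fun l _ =>
        tendsto_finsetSum _ fun i _ => tendsto_finsetSum _ fun j _ => c1 k l i j
    · exact tendsto_finsetSum _ fun i _ => tendsto_finsetSum _ fun j _ => c2 i j
    · exact tendsto_finsetSum _ fun i _ => tendsto_finsetSum _ fun j _ => c3 i j
    · exact tendsto_finsetSum _ fun i _ => tendsto_finsetSum _ fun j _ => c4 i j
  refine ⟨|B (e x)| + 1, by positivity, ?_⟩
  have ev1 : ∀ᶠ z in 𝓝 (e x), B z < |B (e x)| + 1 :=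
    hBc.eventually_lt continuousAt_const (by have := le_abs_self (B (e x)); linarith)
  have hxs : e.source ∈ 𝓝 x := e.open_source.mem_nhds h.2
  filter_upwards [(e.continuousAt h.2).eventually ev1, hxs] with x' hx' hs
  have hAt : At e x' := ⟨h.1, hs⟩
  have q1 := p4 fun k l i j => RM k l (χ e) (e x') i j
  have q2 := p2 fun i j => cHess (fun y => Real.log (χ e y).det.re) (e x') i j
  have q3 := p2 fun i j => χ e (e x') i j
  have q4 := p2 fun i j => cHess (fun y => F (e.symm y)) (e x') i j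
  have q5 := norm_nonneg ((χ e (e x'))⁻¹).trace
  have hBx : (∑ k, ∑ l, ∑ i, ∑ j, ‖RM k l (χ e) (e x') i j‖) +
    (∑ i, ∑ j, ‖cHess (fun y => Real.log (χ e y).det.re) (e x') i j‖) +
    (∑ i, ∑ j, ‖χ e (e x') i j‖) +
    (∑ i, ∑ j, ‖cHess (fun y => F (e.symm y)) (e x') i j‖) + ‖((χ e (e x'))⁻¹).trace‖
      < |B (e x)| + 1 := hx'
  refine ⟨hAt, fun k l i j => ?_, fun s hs0 hs1 i j => ?_, fun i j => ?_, ?_⟩
  · have := s4 (fun k l i j => ‖RM k l (χ e) (e x') i j‖) (fun _ _ _ _ => norm_nonneg _) k l i j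
    linarith
  · have b1 := s2 (fun i j => ‖cHess (fun y => Real.log (χ e y).det.re) (e x') i j‖)
      (fun _ _ => norm_nonneg _) i j
    have b2 := s2 (fun i j => ‖χ e (e x') i j‖) (fun _ _ => norm_nonneg _) i j
    have b3 := s2 (fun i j => ‖cHess (fun y => F (e.symm y)) (e x') i j‖)
      (fun _ _ => norm_nonneg _) i j
    have b4 : ‖Th χ F s e (e x') i j‖ ≤ ‖cHess (fun y => Real.log (χ e y).det.re) (e x') i j‖ +
        ‖χ e (e x') i j‖ + ‖cHess (fun y => F (e.symm y)) (e x') i j‖ := by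
      rw [Th, Matrix.add_apply, Matrix.sub_apply, Matrix.smul_apply, smul_eq_mul]
      refine (norm_add_le _ _).trans (add_le_add (norm_sub_le _ _) ?_)
      rw [norm_mul, Complex.norm_real, Real.norm_of_nonneg hs0]
      exact mul_le_of_le_one_left (norm_nonneg _) hs1
    linarith
  · have := s2 (fun i j => ‖χ e (e x') i j‖) (fun _ _ => norm_nonneg _) i j
    linarith
  · have := Complex.re_le_norm ((χ e (e x'))⁻¹).trace
    linarith

/-- the differential inequality for a solution at a point where the data are bounded -/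
theorem sol_ineq [NeZero n] (hχ : IsKahler χ) (hF : SmoothFn (n := n) F) {s M : ℝ} (hM : 0 ≤ M)
    (hs0 : 0 ≤ s) (hs1 : s ≤ 1) (hu : Sol χ F s u) (hb : Bd χ F M e x) :
    -1 - (n ^ 4 * M ^ 3 * (1 + M)) * tau (addH χ u e) (χ e) (e x) ≤
      ((addH χ u e (e x))⁻¹ *
        cHess (fun y => Real.log (tau (addH χ u e) (χ e) y)) (e x)).trace.re := by
  have h := hb.at'
  have hH := hχ.toIsHermitian
  have hG : MC 2 (addH χ u e) (e x) := (mc_of_smooth hH h 2).add (mc_cHess hu.smooth h 2)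
  have hK0 : ∀ᶠ y in 𝓝 (e x), ∀ i j k,
      dz k (fun y => χ e y i j) y = dz i (fun y => χ e y k j) y := by
    filter_upwards [h.nhds_target] with y hy i j k
    have := hχ.closed e (e.symm y) (At.of_target h.1 hy) i j k
    rwa [e.right_inv hy] at this
  have hu3 : ∀ᶠ y in 𝓝 (e x), ContDiffAt ℝ 3 (fun z => u (e.symm z)) y := by
    have : ContDiffAt ℝ ((3 : ℕ) : WithTop ℕ∞) (fun y => u (e.symm y)) (e x) :=
      (hu.smooth e x h).of_le (nat_le_infty 3)
    exact this.eventually (by simp)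
  have hχ1 : ∀ᶠ y in 𝓝 (e x), MC 1 (χ e) y :=
    MC.eventually (q := 1) (mc_of_smooth hH h 1)
  have hK : ∀ᶠ y in 𝓝 (e x), ∀ i j k,
      dz k (fun y => addH χ u e y i j) y = dz i (fun y => addH χ u e y k j) y := by
    filter_upwards [hK0, hu3, hχ1] with y h1 h2 h3 i j k
    have one : (1 : WithTop ℕ∞) ≠ 0 := by norm_num
    have hd : ∀ a b, DifferentiableAt ℝ (fun y => cHess (fun z => u (e.symm z)) y a b) y :=
      fun a b => (contDiffAt_cHess (m := 1) h2 (by norm_num) a b).differentiableAt one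
    have e1 : ∀ a b c, dz c (fun y => addH χ u e y a b) y =
        dz c (fun y => χ e y a b) y + dz c (fun y => cHess (fun z => u (e.symm z)) y a b) y :=
      fun a b c => dz_add c ((h3 a b).differentiableAt one) (hd a b)
    rw [e1, e1, h1 i j k]
    congr 1
    have h4 : ContDiffAt ℝ 2 (dzb j fun z => ((u (e.symm z) : ℝ) : ℂ)) y :=
      contDiffAt_dzb j (contDiffAt_ofReal h2) (by norm_num)
    exact dz_dz_comm k i h4
  have hric : cHess (fun y => Real.log (addH χ u e y).det.re) (e x) =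
      addH χ u e (e x) + Th χ F s e (e x) := by
    have ev : (fun y => Real.log (addH χ u e y).det.re) =ᶠ[𝓝 (e x)]
        fun y => Real.log (χ e y).det.re + (u (e.symm y) + s * F (e.symm y)) := by
      filter_upwards [h.nhds_target] with y hy
      have := hu.eqn e (e.symm y) (At.of_target h.1 hy)
      rw [e.right_inv hy] at this
      linarith
    have d1 : ContDiffAt ℝ 2 (fun y => Real.log (χ e y).det.re) (e x) := mc_log_det hH h 2
    have d2 : ContDiffAt ℝ 2 (fun y => u (e.symm y)) (e x) :=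
      (hu.smooth e x h).of_le (by norm_cast)
    have d3 : ContDiffAt ℝ 2 (fun y => F (e.symm y)) (e x) := (hF e x h).of_le (by norm_cast)
    rw [cHess_congr ev, cHess_add d1 (d2.add (contDiffAt_const.mul d3)),
      cHess_add d2 (contDiffAt_const.mul d3), cHess_const_mul s d3, addH, Th]
    abel
  exact chernLu_ineq hG (mc_of_smooth hH h 2) (eventually_posDef hu.pos h)
    (eventually_posDef hH.posDef h) hK hM hric hb.rm (hb.th s hs0 hs1) hb.met hb.inv

end local_

end Vale.Agent.P272.K.C2
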