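import Vale.Agent.P272.K.C2.Mat
import Mathlib.Analysis.Matrix.PosDef

/-!
# `log det` and the trace `tr (G⁻¹ H)`: second derivatives
-/

open scoped Manifold ContDiff ComplexOrder Topology Matrix
open MeasureTheory

noncomputable section

namespace Vale.Agent.P272.K.C2

variable {n : ℕ} {ι : Type*} [Fintype ι] [DecidableEq ι]
variable {G H : Cm n → Matrix ι ι ℂ} {z : Cm n} {k l : Fin n}

/-- the mixed second derivative -/
abbrev D2 (k l : Fin n) (M : Cm n → Matrix ι ι ℂ) (z : Cm n) : Matrix ι ι ℂ := DM k (DMb l M) z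

/-- the curvature matrix `R_{k l̄} = -∂_k ∂_l̄ M + ∂_k M M⁻¹ ∂_l̄ M` -/
def RM (k l : Fin n) (M : Cm n → Matrix ι ι ℂ) (z : Cm n) : Matrix ι ι ℂ :=
  -D2 k l M z + DM k M z * (M z)⁻¹ * DMb l M z

/-- `∂_k H - ∂_k G G⁻¹ H` -/
def BM (k : Fin n) (G H : Cm n → Matrix ι ι ℂ) (z : Cm n) : Matrix ι ι ℂ :=
  DM k H z - DM k G z * (G z)⁻¹ * H z

theorem posDef_det_ne_zero {A : Matrix ι ι ℂ} (h : A.PosDef) : A.det ≠ 0 := h.det_pos.ne'

/-- first derivative of `tr (G⁻¹ H)` -/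
theorem dz_trace_inv_mul (hG : MC 1 G z) (hH : MC 1 H z) (h0 : (G z).det ≠ 0) :
    dz k (fun y => ((G y)⁻¹ * H y).trace) z = (BM k G H z * (G z)⁻¹).trace := by
  have hGi : MC 1 (fun y => (G y)⁻¹) z := hG.inv h0
  rw [dz_trace ((hGi.mul hH).md (by norm_num)), DM_mul (hGi.md (by norm_num))
    (hH.md (by norm_num)), DM_inv hG h0, BM]
  rw [Matrix.trace_add, Matrix.sub_mul, Matrix.trace_sub, Matrix.neg_mul, Matrix.trace_neg,
    Matrix.trace_mul_comm (DM k H z)]
  have : ((G z)⁻¹ * DM k G z * (G z)⁻¹ * H z).trace =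
      (DM k G z * (G z)⁻¹ * H z * (G z)⁻¹).trace := by
    rw [Matrix.trace_mul_comm _ (G z)⁻¹]
    simp only [Matrix.mul_assoc]
  rw [this]
  ring

theorem dzb_trace_inv_mul (hG : MC 1 G z) (hH : MC 1 H z) (h0 : (G z).det ≠ 0) :
    dzb k (fun y => ((G y)⁻¹ * H y).trace) z =
      (-((G z)⁻¹ * DMb k G z * (G z)⁻¹ * H z) + (G z)⁻¹ * DMb k H z).trace := by
  have hGi : MC 1 (fun y => (G y)⁻¹) z := hG.inv h0
  rw [dzb_trace ((hGi.mul hH).md (by norm_num)), DMb_mul (hGi.md (by norm_num))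
    (hH.md (by norm_num)), DMb_inv hG h0, Matrix.neg_mul]

/-- the cyclic trace identity behind Chern–Lu -/
theorem trace_identity {P Q H Gk Gl Gkl Hk Hl Hkl : Matrix ι ι ℂ} (hQH : Q * H = 1)
    (hHQ : H * Q = 1) :
    (P * Gk * P * Gl * P * H + P * Gl * P * Gk * P * H - P * Gkl * P * H - P * Gl * P * Hk
      - P * Gk * P * Hl + P * Hkl).trace =
    ((Hk - Gk * P * H) * Q * (Hl - H * P * Gl) * P).trace - (P * (-Hkl + Hk * Q * Hl)).trace +
      (P * (-Gkl + Gk * P * Gl) * P * H).trace := by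
  have e1 : (Hk - Gk * P * H) * Q * (Hl - H * P * Gl) * P =
      Hk * Q * Hl * P - Hk * P * Gl * P - Gk * P * Hl * P + Gk * P * H * P * Gl * P := by
    have a1 : Hk * Q * (H * P * Gl) = Hk * P * Gl := by
      calc Hk * Q * (H * P * Gl) = Hk * (Q * H) * P * Gl := by noncomm_ring
        _ = _ := by rw [hQH, Matrix.mul_one]
    have a2 : Gk * P * H * Q * Hl = Gk * P * Hl := by
      calc Gk * P * H * Q * Hl = Gk * P * (H * Q) * Hl := by noncomm_ring
        _ = _ := by rw [hHQ, Matrix.mul_one]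
    have a3 : Gk * P * H * Q * (H * P * Gl) = Gk * P * H * P * Gl := by
      calc Gk * P * H * Q * (H * P * Gl) = Gk * P * (H * Q) * H * P * Gl := by noncomm_ring
        _ = _ := by rw [hHQ, Matrix.mul_one]
    calc (Hk - Gk * P * H) * Q * (Hl - H * P * Gl) * P
        = (Hk * Q * Hl - Hk * Q * (H * P * Gl) - Gk * P * H * Q * Hl
          + Gk * P * H * Q * (H * P * Gl)) * P := by noncomm_ring
      _ = _ := by rw [a1, a2, a3]; noncomm_ring
  rw [e1]
  have c1 : (Hk * Q * Hl * P).trace = (P * (Hk * Q * Hl)).trace := Matrix.trace_mul_comm _ _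
  have c2 : (Hk * P * Gl * P).trace = (P * Gl * P * Hk).trace := by
    rw [Matrix.mul_assoc, Matrix.mul_assoc, Matrix.trace_mul_comm]
    simp only [Matrix.mul_assoc]
  have c3 : (Gk * P * Hl * P).trace = (P * Gk * P * Hl).trace := by
    rw [Matrix.trace_mul_comm]
    simp only [Matrix.mul_assoc]
  have c4 : (Gk * P * H * P * Gl * P).trace = (P * Gl * P * Gk * P * H).trace := by
    have : Gk * P * H * P * Gl * P = (Gk * P * H) * (P * Gl * P) := by noncomm_ring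
    rw [this, Matrix.trace_mul_comm]
    simp only [Matrix.mul_assoc]
  have d1 : P * (-Gkl + Gk * P * Gl) * P * H = -(P * Gkl * P * H) + P * Gk * P * Gl * P * H := by
    noncomm_ring
  have d2 : P * (-Hkl + Hk * Q * Hl) = -(P * Hkl) + P * (Hk * Q * Hl) := by noncomm_ring
  rw [d1, d2]
  simp only [Matrix.trace_add, Matrix.trace_sub, Matrix.trace_neg, c1, c2, c3, c4]
  ring

/-- second derivative of `tr (G⁻¹ H)`, exact identity for arbitrary Hermitian matrix functions -/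
theorem dz_dzb_trace_inv_mul (hG : MC 2 G z) (hH : MC 2 H z)
    (hGh : ∀ᶠ y in 𝓝 z, (G y).IsHermitian) (hHh : ∀ᶠ y in 𝓝 z, (H y).IsHermitian)
    (h0 : (G z).det ≠ 0) (h1 : (H z).det ≠ 0) :
    dz k (dzb l (fun y => ((G y)⁻¹ * H y).trace)) z =
      (BM k G H z * (H z)⁻¹ * (BM l G H z)ᴴ * (G z)⁻¹).trace - ((G z)⁻¹ * RM k l H z).trace +
        ((G z)⁻¹ * RM k l G z * (G z)⁻¹ * H z).trace := by
  have e : (dzb l (fun y => ((G y)⁻¹ * H y).trace)) =ᶠ[𝓝 z] fun y =>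
      (-((G y)⁻¹ * DMb l G y * (G y)⁻¹ * H y) + (G y)⁻¹ * DMb l H y).trace := by
    filter_upwards [MC.eventually (q := 1) (hG.mono (by norm_num)),
      MC.eventually (q := 1) (hH.mono (by norm_num)),
      det_ne_zero_eventually (hG.mono (by norm_num)) h0] with y h2 h3 h4
    exact dzb_trace_inv_mul h2 h3 h4
  have hG1 : MC 1 G z := hG.mono (by norm_num)
  have hH1 : MC 1 H z := hH.mono (by norm_num)
  have hGi : MC 1 (fun y => (G y)⁻¹) z := hG1.inv h0
  have hGl : MC 1 (DMb l G) z := hG.DMb (by norm_num)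
  have hHl : MC 1 (DMb l H) z := hH.DMb (by norm_num)
  have t1 : MC 1 (fun y => (G y)⁻¹ * DMb l G y) z := hGi.mul hGl
  have t2 : MC 1 (fun y => (G y)⁻¹ * DMb l G y * (G y)⁻¹) z := t1.mul hGi
  have t3 : MC 1 (fun y => (G y)⁻¹ * DMb l G y * (G y)⁻¹ * H y) z := t2.mul hH1
  have t4 : MC 1 (fun y => (G y)⁻¹ * DMb l H y) z := hGi.mul hHl
  have one : (1 : WithTop ℕ∞) ≠ 0 := by norm_num
  rw [dz_congr k e, dz_trace ((t3.neg.add t4).md one), DM_add (t3.neg.md one) (t4.md one), DM_neg,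
    DM_mul (t2.md one) (hH1.md one), DM_mul (t1.md one) (hGi.md one),
    DM_mul (hGi.md one) (hGl.md one), DM_mul (hGi.md one) (hHl.md one), DM_inv hG1 h0]
  have hBl : (BM l G H z)ᴴ = DMb l H z - H z * (G z)⁻¹ * DMb l G z := by
    have hg := hGh.self_of_nhds
    have hh := hHh.self_of_nhds
    rw [BM, Matrix.conjTranspose_sub, Matrix.conjTranspose_mul, Matrix.conjTranspose_mul,
      ← DMb_of_isHermitian (hH1.md one) hHh, ← DMb_of_isHermitian (hG1.md one) hGh,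
      Matrix.conjTranspose_nonsing_inv, hg.eq, hh.eq, Matrix.mul_assoc]
  have key := trace_identity (P := (G z)⁻¹) (Q := (H z)⁻¹) (H := H z) (Gk := DM k G z)
    (Gl := DMb l G z) (Gkl := D2 k l G z) (Hk := DM k H z) (Hl := DMb l H z) (Hkl := D2 k l H z)
    (Matrix.nonsing_inv_mul _ (isUnit_iff_ne_zero.2 h1))
    (Matrix.mul_nonsing_inv _ (isUnit_iff_ne_zero.2 h1))
  rw [hBl, RM, RM, BM, ← key]
  congr 1
  simp only [D2]
  noncomm_ring

end Vale.Agent.P272.K.C2
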