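import Vale.Agent.P272.K.C2.Wirt
import Mathlib.LinearAlgebra.Matrix.Adjugate
import Mathlib.LinearAlgebra.Matrix.NonsingularInverse
import Mathlib.Analysis.Calculus.FDeriv.Mul

/-!
# Wirtinger calculus for matrix valued functions
-/

open scoped Manifold ContDiff ComplexOrder Topology Matrix
open MeasureTheory

noncomputable section

namespace Vale.Agent.P272.K.C2

variable {n : ℕ} {ι κ μ : Type*}

/-- entrywise `∂/∂z_k` -/
def DM (k : Fin n) (M : Cm n → Matrix ι κ ℂ) (z : Cm n) : Matrix ι κ ℂ :=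
  Matrix.of fun i j => dz k (fun y => M y i j) z

/-- entrywise `∂/∂z̄_k` -/
def DMb (k : Fin n) (M : Cm n → Matrix ι κ ℂ) (z : Cm n) : Matrix ι κ ℂ :=
  Matrix.of fun i j => dzb k (fun y => M y i j) z

/-- entrywise differentiability -/
def MD (M : Cm n → Matrix ι κ ℂ) (z : Cm n) : Prop :=
  ∀ i j, DifferentiableAt ℝ (fun y => M y i j) z

/-- entrywise `C^m` -/
def MC (m : WithTop ℕ∞) (M : Cm n → Matrix ι κ ℂ) (z : Cm n) : Prop :=
  ∀ i j, ContDiffAt ℝ m (fun y => M y i j) z

@[simp] theorem DM_apply (k : Fin n) (M : Cm n → Matrix ι κ ℂ) (z : Cm n) (i : ι) (j : κ) :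
    DM k M z i j = dz k (fun y => M y i j) z := rfl

@[simp] theorem DMb_apply (k : Fin n) (M : Cm n → Matrix ι κ ℂ) (z : Cm n) (i : ι) (j : κ) :
    DMb k M z i j = dzb k (fun y => M y i j) z := rfl

variable {M N : Cm n → Matrix ι κ ℂ} {z : Cm n} {k l : Fin n} {m : WithTop ℕ∞}

theorem MC.md (h : MC m M z) (hm : m ≠ 0) : MD M z := fun i j => (h i j).differentiableAt hm

theorem MC.mono {m' : WithTop ℕ∞} (h : MC m M z) (hm : m' ≤ m) : MC m' M z :=
  fun i j => (h i j).of_le hm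

theorem MC.eventually [Finite ι] [Finite κ] {q : ℕ} (h : MC q M z) : ∀ᶠ y in 𝓝 z, MC q M y := by
  have : ∀ i : ι, ∀ᶠ y in 𝓝 z, ∀ j : κ, ContDiffAt ℝ q (fun y => M y i j) y := by
    intro i
    rw [Filter.eventually_all]
    exact fun j => (h i j).eventually (by simp)
  exact Filter.eventually_all.2 this

theorem DM_congr (h : M =ᶠ[𝓝 z] N) : DM k M z = DM k N z := by
  ext i j
  exact dz_congr k (by filter_upwards [h] with y hy; rw [hy])

theorem DMb_congr (h : M =ᶠ[𝓝 z] N) : DMb k M z = DMb k N z := by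
  ext i j
  exact dzb_congr k (by filter_upwards [h] with y hy; rw [hy])

theorem DM_eventuallyEq (h : M =ᶠ[𝓝 z] N) : DM k M =ᶠ[𝓝 z] DM k N := by
  filter_upwards [h.eventuallyEq_nhds] with y hy using DM_congr hy

theorem DMb_eventuallyEq (h : M =ᶠ[𝓝 z] N) : DMb k M =ᶠ[𝓝 z] DMb k N := by
  filter_upwards [h.eventuallyEq_nhds] with y hy using DMb_congr hy

theorem DM_add (hM : MD M z) (hN : MD N z) :
    DM k (fun y => M y + N y) z = DM k M z + DM k N z := by
  ext i j; exact dz_add k (hM i j) (hN i j)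

theorem DMb_add (hM : MD M z) (hN : MD N z) :
    DMb k (fun y => M y + N y) z = DMb k M z + DMb k N z := by
  ext i j; exact dzb_add k (hM i j) (hN i j)

theorem DM_neg : DM k (fun y => -M y) z = -DM k M z := by
  ext i j; exact dz_neg k

theorem DMb_neg : DMb k (fun y => -M y) z = -DMb k M z := by
  ext i j; exact dzb_neg k

theorem DM_sub (hM : MD M z) (hN : MD N z) :
    DM k (fun y => M y - N y) z = DM k M z - DM k N z := by
  ext i j; exact dz_sub k (hM i j) (hN i j)

theorem DMb_sub (hM : MD M z) (hN : MD N z) :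
    DMb k (fun y => M y - N y) z = DMb k M z - DMb k N z := by
  ext i j; exact dzb_sub k (hM i j) (hN i j)

theorem DM_const (A : Matrix ι κ ℂ) : DM k (fun _ => A) z = 0 := by
  ext i j; exact dz_const k _

theorem DMb_const (A : Matrix ι κ ℂ) : DMb k (fun _ => A) z = 0 := by
  ext i j; exact dzb_const k _

theorem DM_mul [Fintype κ] {L : Cm n → Matrix κ μ ℂ} (hM : MD M z) (hL : MD L z) :
    DM k (fun y => M y * L y) z = DM k M z * L z + M z * DM k L z := by
  ext i j
  rw [DM_apply, Matrix.add_apply, Matrix.mul_apply, Matrix.mul_apply]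
  have : (fun y => (M y * L y) i j) = fun y => ∑ q, M y i q * L y q j := by
    ext y; rw [Matrix.mul_apply]
  rw [this, dz_sum k _ (fun q _ => (hM i q).fun_mul (hL q j)), ← Finset.sum_add_distrib]
  exact Finset.sum_congr rfl fun q _ => dz_mul k (hM i q) (hL q j)

theorem DMb_mul [Fintype κ] {L : Cm n → Matrix κ μ ℂ} (hM : MD M z) (hL : MD L z) :
    DMb k (fun y => M y * L y) z = DMb k M z * L z + M z * DMb k L z := by
  ext i j
  rw [DMb_apply, Matrix.add_apply, Matrix.mul_apply, Matrix.mul_apply]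
  have : (fun y => (M y * L y) i j) = fun y => ∑ q, M y i q * L y q j := by
    ext y; rw [Matrix.mul_apply]
  rw [this, dzb_sum k _ (fun q _ => (hM i q).fun_mul (hL q j)), ← Finset.sum_add_distrib]
  exact Finset.sum_congr rfl fun q _ => dzb_mul k (hM i q) (hL q j)

theorem dz_trace [Fintype ι] {A : Cm n → Matrix ι ι ℂ} (hA : MD A z) :
    dz k (fun y => (A y).trace) z = (DM k A z).trace := by
  simp only [Matrix.trace, Matrix.diag_apply]
  rw [dz_sum k _ (fun i _ => hA i i)]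
  rfl

theorem dzb_trace [Fintype ι] {A : Cm n → Matrix ι ι ℂ} (hA : MD A z) :
    dzb k (fun y => (A y).trace) z = (DMb k A z).trace := by
  simp only [Matrix.trace, Matrix.diag_apply]
  rw [dzb_sum k _ (fun i _ => hA i i)]
  rfl

theorem DM_conjTranspose (hM : MD M z) :
    DM k (fun y => (M y)ᴴ) z = (DMb k M z)ᴴ := by
  ext i j
  exact dz_conj k (hM j i)

theorem DMb_conjTranspose (hM : MD M z) :
    DMb k (fun y => (M y)ᴴ) z = (DM k M z)ᴴ := by
  ext i j
  exact dzb_conj k (hM j i)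

theorem DMb_of_isHermitian {A : Cm n → Matrix ι ι ℂ} (hA : MD A z)
    (hH : ∀ᶠ y in 𝓝 z, (A y).IsHermitian) : DMb k A z = (DM k A z)ᴴ := by
  rw [← DMb_conjTranspose hA]
  exact DMb_congr (by filter_upwards [hH] with y hy using hy.symm)

theorem MC.add (hM : MC m M z) (hN : MC m N z) : MC m (fun y => M y + N y) z :=
  fun i j => (hM i j).add (hN i j)

theorem MC.sub (hM : MC m M z) (hN : MC m N z) : MC m (fun y => M y - N y) z :=
  fun i j => (hM i j).sub (hN i j)

theorem MC.neg (hM : MC m M z) : MC m (fun y => -M y) z :=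
  fun i j => (hM i j).neg

theorem MC.mul [Fintype κ] {L : Cm n → Matrix κ μ ℂ} (hM : MC m M z) (hL : MC m L z) :
    MC m (fun y => M y * L y) z := by
  intro i j
  have : (fun y => (M y * L y) i j) = fun y => ∑ q, M y i q * L y q j := by
    ext y; rw [Matrix.mul_apply]
  rw [this]
  exact ContDiffAt.sum fun q _ => (hM i q).mul (hL q j)

theorem MC.conjTranspose (hM : MC m M z) : MC m (fun y => (M y)ᴴ) z :=
  fun i j => contDiffAt_conj (hM j i)

theorem MC.trace [Fintype ι] {A : Cm n → Matrix ι ι ℂ} (hA : MC m A z) :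
    ContDiffAt ℝ m (fun y => (A y).trace) z := by
  simp only [Matrix.trace, Matrix.diag_apply]
  exact ContDiffAt.sum fun i _ => hA i i

theorem MC.DM {m' : WithTop ℕ∞} (hM : MC m M z) (h : m' + 1 ≤ m) : MC m' (DM k M) z :=
  fun i j => contDiffAt_dz k (hM i j) h

theorem MC.DMb {m' : WithTop ℕ∞} (hM : MC m M z) (h : m' + 1 ≤ m) : MC m' (DMb k M) z :=
  fun i j => contDiffAt_dzb k (hM i j) h

theorem DM_DMb_comm (hM : MC 2 M z) : DM k (DMb l M) z = DMb l (DM k M) z := by
  ext i j; exact dz_dzb_comm k l (hM i j)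

variable [Fintype ι] [DecidableEq ι]

theorem MC.det {A : Cm n → Matrix ι ι ℂ} (hA : MC m A z) :
    ContDiffAt ℝ m (fun y => (A y).det) z := by
  simp only [Matrix.det_apply]
  refine ContDiffAt.sum fun σ _ => ?_
  have h1 : ContDiffAt ℝ m (fun y => ∏ i, A y (σ i) i) z :=
    contDiffAt_prod fun i _ => hA (σ i) i
  have h2 : (fun y => Equiv.Perm.sign σ • ∏ i, A y (σ i) i) =
      fun y => ((Equiv.Perm.sign σ : ℤ) : ℂ) * ∏ i, A y (σ i) i := by
    ext y
    rw [Units.smul_def, zsmul_eq_mul]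
  rw [h2]
  exact contDiffAt_const.mul h1

theorem MC.adjugate {A : Cm n → Matrix ι ι ℂ} (hA : MC m A z) :
    MC m (fun y => (A y).adjugate) z := by
  intro i j
  simp only [Matrix.adjugate_apply]
  refine MC.det (A := fun y => (A y).updateRow j (Pi.single i 1)) ?_
  intro a b
  by_cases h : a = j
  · subst h
    simp only [Matrix.updateRow_self]
    exact contDiffAt_const
  · simp only [Matrix.updateRow_ne h]
    exact hA a b

theorem MC.inv {A : Cm n → Matrix ι ι ℂ} (hA : MC m A z) (h0 : (A z).det ≠ 0) :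
    MC m (fun y => (A y)⁻¹) z := by
  intro i j
  have : (fun y => (A y)⁻¹ i j) = fun y => ((A y).det)⁻¹ * (A y).adjugate i j := by
    ext y
    rw [Matrix.inv_def, Matrix.smul_apply, Ring.inverse_eq_inv', smul_eq_mul]
  rw [this]
  exact (hA.det.inv h0).mul (hA.adjugate i j)

theorem det_ne_zero_eventually {A : Cm n → Matrix ι ι ℂ} (hA : MC 0 A z) (h0 : (A z).det ≠ 0) :
    ∀ᶠ y in 𝓝 z, (A y).det ≠ 0 :=
  (hA.det.continuousAt).eventually_ne h0

theorem DM_inv {A : Cm n → Matrix ι ι ℂ} (hA : MC 1 A z) (h0 : (A z).det ≠ 0) :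
    DM k (fun y => (A y)⁻¹) z = -((A z)⁻¹ * DM k A z * (A z)⁻¹) := by
  have h1 : DM k (fun y => A y * (A y)⁻¹) z = 0 := by
    rw [← DM_const (z := z) (k := k) (1 : Matrix ι ι ℂ)]
    refine DM_congr ?_
    filter_upwards [det_ne_zero_eventually (hA.mono (by norm_num)) h0] with y hy
    exact Matrix.mul_nonsing_inv _ (isUnit_iff_ne_zero.2 hy)
  rw [DM_mul (hA.md (by norm_num)) ((hA.inv h0).md (by norm_num))] at h1
  have h2 : (A z)⁻¹ * (DM k A z * (A z)⁻¹ + A z * DM k (fun y => (A y)⁻¹) z) = 0 := by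
    rw [h1, Matrix.mul_zero]
  rw [Matrix.mul_add, ← Matrix.mul_assoc (A z)⁻¹ (A z),
    Matrix.nonsing_inv_mul _ (isUnit_iff_ne_zero.2 h0), Matrix.one_mul, ← Matrix.mul_assoc] at h2
  exact eq_neg_of_add_eq_zero_right h2

theorem DMb_inv {A : Cm n → Matrix ι ι ℂ} (hA : MC 1 A z) (h0 : (A z).det ≠ 0) :
    DMb k (fun y => (A y)⁻¹) z = -((A z)⁻¹ * DMb k A z * (A z)⁻¹) := by
  have h1 : DMb k (fun y => A y * (A y)⁻¹) z = 0 := by
    rw [← DMb_const (z := z) (k := k) (1 : Matrix ι ι ℂ)]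
    refine DMb_congr ?_
    filter_upwards [det_ne_zero_eventually (hA.mono (by norm_num)) h0] with y hy
    exact Matrix.mul_nonsing_inv _ (isUnit_iff_ne_zero.2 hy)
  rw [DMb_mul (hA.md (by norm_num)) ((hA.inv h0).md (by norm_num))] at h1
  have h2 : (A z)⁻¹ * (DMb k A z * (A z)⁻¹ + A z * DMb k (fun y => (A y)⁻¹) z) = 0 := by
    rw [h1, Matrix.mul_zero]
  rw [Matrix.mul_add, ← Matrix.mul_assoc (A z)⁻¹ (A z),
    Matrix.nonsing_inv_mul _ (isUnit_iff_ne_zero.2 h0), Matrix.one_mul, ← Matrix.mul_assoc] at h2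
  exact eq_neg_of_add_eq_zero_right h2

omit [Fintype ι] in
/-- the Leibniz rule for finite products of a complex combination of directional derivatives -/
theorem DD_prod (a b : ℂ) (v w : Cm n) (s : Finset ι) {F : ι → Cm n → ℂ}
    (hF : ∀ i ∈ s, DifferentiableAt ℝ (F i) z) :
    DD a b v w (fun y => ∏ i ∈ s, F i y) z =
      ∑ i ∈ s, (∏ j ∈ s.erase i, F j z) * DD a b v w (F i) z := by
  have h : HasFDerivAt (fun y => ∏ i ∈ s, F i y)
      (∑ i ∈ s, (∏ j ∈ s.erase i, F j z) • fderiv ℝ (F i) z) z :=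
    HasFDerivAt.finsetProd fun i hi => (hF i hi).hasFDerivAt
  simp only [DD, h.fderiv, sum_apply, smul_apply, smul_eq_mul]
  rw [Finset.mul_sum, Finset.mul_sum, ← Finset.sum_add_distrib]
  exact Finset.sum_congr rfl fun i _ => by ring

theorem DD_det (a b : ℂ) (v w : Cm n) {A : Cm n → Matrix ι ι ℂ} (hA : MD A z) :
    DD a b v w (fun y => (A y).det) z =
      ((A z).adjugate * Matrix.of fun i j => DD a b v w (fun y => A y i j) z).trace := by
  set B : Matrix ι ι ℂ := Matrix.of fun i j => DD a b v w (fun y => A y i j) z with hB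
  have e1 : (fun y => (A y).det) = fun y => ∑ σ : Equiv.Perm ι,
      ((Equiv.Perm.sign σ : ℤ) : ℂ) * ∏ i, A y (σ i) i := by
    ext y
    rw [Matrix.det_apply']
  have hprod : ∀ σ : Equiv.Perm ι, DifferentiableAt ℝ (fun y => ∏ i, A y (σ i) i) z := fun σ =>
    (HasFDerivAt.finsetProd fun i _ => (hA (σ i) i).hasFDerivAt).differentiableAt
  rw [e1, DD_sum a b v w _ fun σ _ => (hprod σ).const_mul _]
  have e2 : ∀ σ : Equiv.Perm ι, DD a b v w (fun y => ((Equiv.Perm.sign σ : ℤ) : ℂ) *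
      ∏ i, A y (σ i) i) z = ∑ i, ((Equiv.Perm.sign σ : ℤ) : ℂ) *
        ((∏ j ∈ Finset.univ.erase i, A z (σ j) j) * B (σ i) i) := by
    intro σ
    rw [DD_const_mul a b v w _ (hprod σ), DD_prod a b v w _ (fun i _ => hA (σ i) i),
      Finset.mul_sum]
    rfl
  rw [Finset.sum_congr rfl fun σ _ => e2 σ, Finset.sum_comm]
  simp only [Matrix.trace, Matrix.diag_apply]
  refine Finset.sum_congr rfl fun i _ => ?_
  have e3 : ((A z).adjugate * B) i i = ((A z).updateCol i (fun r => B r i)).det := by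
    rw [← Matrix.cramer_apply, Matrix.cramer_eq_adjugate_mulVec]
    rfl
  rw [e3, Matrix.det_apply']
  refine Finset.sum_congr rfl fun σ _ => ?_
  congr 1
  rw [← Finset.mul_prod_erase Finset.univ _ (Finset.mem_univ i), Matrix.updateCol_self, mul_comm]
  congr 1
  refine Finset.prod_congr rfl fun j hj => ?_
  rw [Matrix.updateCol_ne (Finset.ne_of_mem_erase hj)]

theorem dz_det {A : Cm n → Matrix ι ι ℂ} (hA : MD A z) (h0 : (A z).det ≠ 0) :
    dz k (fun y => (A y).det) z = (A z).det * ((A z)⁻¹ * DM k A z).trace := by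
  have h1 : dz k (fun y => (A y).det) z = ((A z).adjugate * DM k A z).trace := by
    rw [dz_eq_DD, DD_det _ _ _ _ hA]
    congr 2
    ext i j
    rw [DM_apply, dz_eq_DD]; rfl
  rw [h1, Matrix.inv_def, Ring.inverse_eq_inv', Matrix.smul_mul, Matrix.trace_smul, smul_eq_mul,
    mul_inv_cancel_left₀ h0]

theorem dzb_det {A : Cm n → Matrix ι ι ℂ} (hA : MD A z) (h0 : (A z).det ≠ 0) :
    dzb k (fun y => (A y).det) z = (A z).det * ((A z)⁻¹ * DMb k A z).trace := by
  have h1 : dzb k (fun y => (A y).det) z = ((A z).adjugate * DMb k A z).trace := by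
    rw [dzb_eq_DD, DD_det _ _ _ _ hA]
    congr 2
    ext i j
    rw [DMb_apply, dzb_eq_DD]; rfl
  rw [h1, Matrix.inv_def, Ring.inverse_eq_inv', Matrix.smul_mul, Matrix.trace_smul, smul_eq_mul,
    mul_inv_cancel_left₀ h0]

end Vale.Agent.P272.K.C2
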