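import Vale.Agent.P272.K.C2.ChernLu
import Vale.Agent.P272.K.C2.Eig

/-!
# Pointwise differential inequality `Δ log τ ≥ -1 - A τ`
-/

open scoped Manifold ContDiff ComplexOrder Topology Matrix
open MeasureTheory

noncomputable section

namespace Vale.Agent.P272.K.C2

variable {n : ℕ}

theorem norm_trace_mul_le {P A : Matrix (Fin n) (Fin n) ℂ} {a b : ℝ} (ha : 0 ≤ a)
    (hP : ∀ i j, ‖P i j‖ ≤ a) (hA : ∀ i j, ‖A i j‖ ≤ b) : ‖(P * A).trace‖ ≤ n ^ 2 * (a * b) := by
  rw [Matrix.trace]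
  calc ‖∑ i, (P * A).diag i‖ ≤ ∑ i : Fin n, ‖(P * A).diag i‖ := norm_sum_le _ _
    _ ≤ ∑ i : Fin n, ∑ j : Fin n, a * b := by
        refine Finset.sum_le_sum fun i _ => ?_
        rw [Matrix.diag_apply, Matrix.mul_apply]
        refine (norm_sum_le _ _).trans (Finset.sum_le_sum fun j _ => ?_)
        rw [norm_mul]
        exact mul_le_mul (hP i j) (hA j i) (norm_nonneg _) ha
    _ = n ^ 2 * (a * b) := by
        simp only [Finset.sum_const, Finset.card_univ, Fintype.card_fin, nsmul_eq_mul]; ring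

theorem norm_mul_entry_le {A B : Matrix (Fin n) (Fin n) ℂ} {a b : ℝ} (ha : 0 ≤ a)
    (hA : ∀ i j, ‖A i j‖ ≤ a) (hB : ∀ i j, ‖B i j‖ ≤ b) (i j : Fin n) :
    ‖(A * B) i j‖ ≤ n * (a * b) := by
  rw [Matrix.mul_apply]
  calc ‖∑ q, A i q * B q j‖ ≤ ∑ q : Fin n, ‖A i q * B q j‖ := norm_sum_le _ _
    _ ≤ ∑ q : Fin n, a * b := by
        refine Finset.sum_le_sum fun q _ => ?_
        rw [norm_mul]
        exact mul_le_mul (hA i q) (hB q j) (norm_nonneg _) ha
    _ = n * (a * b) := by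
        simp only [Finset.sum_const, Finset.card_univ, Fintype.card_fin, nsmul_eq_mul]

theorem trace_le_trace_mul {P H : Matrix (Fin n) (Fin n) ℂ} (hP : P.PosSemidef) (hH : H.PosDef)
    {M : ℝ} (hM : (H⁻¹).trace.re ≤ M) : P.trace.re ≤ M * (P * H).trace.re := by
  have h1 := trace_smul_sub_posSemidef hH (Matrix.PosSemidef.one (n := Fin n) (R := ℂ))
  rw [Matrix.mul_one] at h1
  have h2 := trace_mul_nonneg hP h1
  rw [Matrix.mul_sub, Matrix.mul_one, Matrix.trace_sub, Matrix.mul_smul, Matrix.trace_smul,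
    smul_eq_mul] at h2
  have h3 : (((H⁻¹).trace.re : ℝ) : ℂ) = (H⁻¹).trace := by
    have := hH.inv.posSemidef.trace_nonneg
    rw [Complex.le_def] at this
    apply Complex.ext
    · simp
    · simpa using this.2
  rw [← h3, Complex.le_def] at h2
  have h4 := h2.1
  rw [Complex.sub_re, Complex.re_ofReal_mul, Complex.zero_re] at h4
  have h5 : 0 ≤ (P * H).trace.re := by
    have := trace_mul_nonneg hP hH.posSemidef
    rw [Complex.le_def] at this
    simpa using this.1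
  have h6 := mul_le_mul_of_nonneg_right hM h5
  linarith

variable [NeZero n] {G H : Cm n → Matrix (Fin n) (Fin n) ℂ} {z : Cm n}

/-- Pointwise Chern–Lu inequality. -/
theorem chernLu_ineq (hG : MC 2 G z) (hH : MC 2 H z) (hGp : ∀ᶠ y in 𝓝 z, (G y).PosDef)
    (hHp : ∀ᶠ y in 𝓝 z, (H y).PosDef)
    (hK : ∀ᶠ y in 𝓝 z, ∀ i j k, dz k (fun y => G y i j) y = dz i (fun y => G y k j) y)
    {M : ℝ} (hM : 0 ≤ M) {Θ : Matrix (Fin n) (Fin n) ℂ}
    (hric : cHess (fun y => Real.log (G y).det.re) z = G z + Θ)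
    (hR : ∀ k l i j, ‖RM k l H z i j‖ ≤ M) (hΘ : ∀ i j, ‖Θ i j‖ ≤ M) (hHM : ∀ i j, ‖H z i j‖ ≤ M)
    (hHi : ((H z)⁻¹).trace.re ≤ M) :
    -1 - (n ^ 4 * M ^ 3 * (1 + M)) * tau G H z ≤
      ((G z)⁻¹ * cHess (fun y => Real.log (tau G H y)) z).trace.re := by
  obtain ⟨C, hC⟩ := chernLu hG hH hGp hHp hK
  have hGz := hGp.self_of_nhds
  have hHz := hHp.self_of_nhds
  set P := (G z)⁻¹ with hP
  set t := tau G H z with ht
  have tpos : 0 < t := trace_re_pos hGz hHz
  have htdef : t = (P * H z).trace.re := rfl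
  have hPp : P.PosSemidef := hGz.inv.posSemidef
  have hPle : ∀ i j, ‖P i j‖ ≤ M * t := fun i j =>
    (norm_entry_le_trace hPp i j).trans (trace_le_trace_mul hPp hHz hHi)
  have hMt : 0 ≤ M * t := mul_nonneg hM tpos.le
  have hn1 : (1 : ℝ) ≤ n := by
    exact_mod_cast Nat.one_le_iff_ne_zero.2 (NeZero.ne n)
  -- the three terms
  have h1 : 0 ≤ (∑ l, ∑ k, P l k * (C k * (H z)⁻¹ * (C l)ᴴ * P).trace).re := by
    have := sum_trace_nonneg hPp hPp hHz.inv.posSemidef C
    rw [Complex.le_def] at this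
    simpa using this.1
  have h2 : ‖∑ l, ∑ k, P l k * (P * RM k l H z).trace‖ ≤ n ^ 4 * (M ^ 3 * t ^ 2) := by
    calc ‖∑ l, ∑ k, P l k * (P * RM k l H z).trace‖
        ≤ ∑ l : Fin n, ‖∑ k, P l k * (P * RM k l H z).trace‖ := norm_sum_le _ _
      _ ≤ ∑ l : Fin n, ∑ k : Fin n, (M * t) * (n ^ 2 * (M * t * M)) := by
          refine Finset.sum_le_sum fun l _ => (norm_sum_le _ _).trans
            (Finset.sum_le_sum fun k _ => ?_)
          rw [norm_mul]
          exact mul_le_mul (hPle l k) (norm_trace_mul_le hMt hPle (hR k l)) (norm_nonneg _) hMt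
      _ = n ^ 4 * (M ^ 3 * t ^ 2) := by
          simp only [Finset.sum_const, Finset.card_univ, Fintype.card_fin, nsmul_eq_mul]; ring
  have h3 : (P * (-cHess (fun y => Real.log (G y).det.re) z) * P * H z).trace =
      -(t : ℂ) - (P * (Θ * (P * H z))).trace := by
    rw [hric]
    have e : P * (-(G z + Θ)) * P * H z = -(P * G z * P * H z) - P * (Θ * (P * H z)) := by
      noncomm_ring
    have hPG : P * G z = 1 :=
      Matrix.nonsing_inv_mul _ (isUnit_iff_ne_zero.2 (posDef_det_ne_zero hGz))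
    rw [e, hPG, Matrix.one_mul, Matrix.trace_sub, Matrix.trace_neg, htdef,
      trace_re_eq hGz hHz]
  have h4 : ‖(P * (Θ * (P * H z))).trace‖ ≤ n ^ 4 * (M ^ 4 * t ^ 2) := by
    have a1 : ∀ i j, ‖(P * H z) i j‖ ≤ n * (M * t * M) := norm_mul_entry_le hMt hPle hHM
    have a2 : ∀ i j, ‖(Θ * (P * H z)) i j‖ ≤ n * (M * (n * (M * t * M))) :=
      norm_mul_entry_le hM hΘ a1
    refine (norm_trace_mul_le hMt hPle a2).trans (le_of_eq ?_)
    ring
  have h5 := congrArg Complex.re hC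
  rw [Complex.re_ofReal_mul, h3] at h5
  simp only [Complex.add_re, Complex.sub_re, Complex.neg_re, Complex.ofReal_re] at h5
  have h6 := Complex.re_le_norm (∑ l, ∑ k, P l k * (P * RM k l H z).trace)
  have h7 := Complex.re_le_norm (P * (Θ * (P * H z))).trace
  have h8 : t * (-1 - (n ^ 4 * M ^ 3 * (1 + M)) * t) ≤
      t * (P * cHess (fun y => Real.log (tau G H y)) z).trace.re := by
    rw [h5]
    have : t * (-1 - (n ^ 4 * M ^ 3 * (1 + M)) * t) =
        -t - n ^ 4 * (M ^ 3 * t ^ 2) - n ^ 4 * (M ^ 4 * t ^ 2) := by ring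
    rw [this]
    linarith
  exact le_of_mul_le_mul_left h8 tpos

end Vale.Agent.P272.K.C2
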